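import Vale.Agent.P307P.Base

/-! The one transfinite recursion. `F i` is built by well-founded recursion (`WellFounded.fix`
with total choice functions, compare `Vale/Agent/P307M/Ord1.lean`): `B i` is `a0` if `i` has no
predecessor and otherwise a bound of the chain `F j`, `j < i` (index type `Set.Iio i`), and `F i`
is a step from `B i`. Invariant: size at most `max #(Iio i) m < μ`. -/

open Cardinal FirstOrder Set
open FirstOrder.Language.Structure

universe u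

namespace Vale.Agent.P307P

variable {L : FirstOrder.Language.{u, u}} {K : AEC L} {l θ : Cardinal.{u}}
  {W W' W'' : Type u} [L.Structure W] [L.Structure W'] [L.Structure W'']

theorem rec_fix {ι X : Type u} [LinearOrder ι] [WellFoundedLT ι]
    (G : ∀ i : ι, (Iio i → X) → X) : ∃ A : ι → X, ∀ i, A i = G i fun j => A j :=
  ⟨WellFounded.fix wellFounded_lt fun i r => G i fun j => r j.1 j.2,
    fun i => WellFounded.fix_eq _ _ i⟩

theorem rec_family {α ι : Type u} [LinearOrder ι] [WellFoundedLT ι] (Good : α → Prop)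
    (Le : α → α → Prop) (size : α → Cardinal.{u}) (Rel : ι → α → α → Prop) (a0 : α)
    {m μ : Cardinal.{u}} (hm : ℵ₀ ≤ m) (hmμ : m < μ) (hι : ∀ i : ι, #(Iio i) < μ)
    (h0 : Good a0) (hs0 : size a0 ≤ m) (refl' : ∀ a, Good a → Le a a)
    (trans' : ∀ a b c, Le a b → Le b c → Le a c)
    (step : ∀ i a c, m ≤ c → c < μ → Good a → Le a0 a → size a ≤ c →
      ∃ b, Good b ∧ Le a b ∧ Rel i a b ∧ size b ≤ c)
    (chain : ∀ (κ : Type u) [LinearOrder κ] [WellFoundedLT κ] [Nonempty κ] (F : κ → α)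
      (c : Cardinal.{u}), ℵ₀ ≤ c → c < μ → #κ ≤ c → (∀ i, Good (F i) ∧ size (F i) ≤ c) →
      (∀ i j, i ≤ j → Le (F i) (F j)) → ∃ b, Good b ∧ size b ≤ c ∧ ∀ i, Le (F i) b) :
    ∃ F B : ι → α, (∀ i j, i ≤ j → Le (F i) (F j)) ∧
      ∀ i, Good (F i) ∧ Good (B i) ∧ Le a0 (B i) ∧ (∀ j, j < i → Le (F j) (B i)) ∧
        Le (B i) (F i) ∧ Rel i (B i) (F i) ∧ size (F i) ≤ max #(Iio i) m ∧
        size (B i) ≤ max #(Iio i) m := by
  have hG : ∀ (i : ι) (r : Iio i → α), ∃ p : α × α,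
      (∀ j, Good (r j) ∧ size (r j) ≤ max #(Iio i) m ∧ Le a0 (r j)) →
      (∀ j k, j ≤ k → Le (r j) (r k)) →
      Good p.2 ∧ Good p.1 ∧ Le a0 p.1 ∧ (∀ j, Le (r j) p.1) ∧ Le p.1 p.2 ∧ Rel i p.1 p.2 ∧
        size p.2 ≤ max #(Iio i) m ∧ size p.1 ≤ max #(Iio i) m := by
    intro i r
    by_cases h1 : (∀ j, Good (r j) ∧ size (r j) ≤ max #(Iio i) m ∧ Le a0 (r j)) ∧
      ∀ j k, j ≤ k → Le (r j) (r k)
    · have hc : max #(Iio i) m < μ := max_lt (hι i) hmμ
      obtain ⟨b, b1, b2, b3, b4⟩ : ∃ b, Good b ∧ size b ≤ max #(Iio i) m ∧ Le a0 b ∧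
          ∀ j, Le (r j) b := by
        rcases isEmpty_or_nonempty (Iio i) with he | ⟨⟨j0⟩⟩
        · exact ⟨a0, h0, hs0.trans (le_max_right _ _), refl' a0 h0, fun j => he.elim j⟩
        · have : Nonempty (Iio i) := ⟨j0⟩
          obtain ⟨b, b1, b2, b3⟩ := chain (Iio i) r _ (hm.trans (le_max_right _ _)) hc
            (le_max_left _ _) (fun j => ⟨(h1.1 j).1, (h1.1 j).2.1⟩) h1.2
          exact ⟨b, b1, b2, trans' _ _ _ (h1.1 j0).2.2 (b3 j0), b3⟩
      obtain ⟨d, d1, d2, d3, d4⟩ := step i b _ (le_max_right _ _) hc b1 b3 b2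
      exact ⟨(b, d), fun _ _ => ⟨d1, b1, b3, b4, d2, d3, d4, b2⟩⟩
    · exact ⟨(a0, a0), fun h2 h3 => (h1 ⟨h2, h3⟩).elim⟩
  choose G hG using hG
  obtain ⟨A, hA⟩ := rec_fix (ι := ι) (X := α × α) fun i r => G i fun j => (r j).2
  have key : ∀ i, Good (A i).2 ∧ Good (A i).1 ∧ Le a0 (A i).1 ∧
      (∀ j, j < i → Le (A j).2 (A i).1) ∧ Le (A i).1 (A i).2 ∧ Rel i (A i).1 (A i).2 ∧
      size (A i).2 ≤ max #(Iio i) m ∧ size (A i).1 ≤ max #(Iio i) m := by
    intro i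
    induction i using WellFoundedLT.induction with
    | ind i ih =>
      have h1 := hG i (fun j => (A j).2) (fun j => ⟨(ih j j.2).1,
        (ih j j.2).2.2.2.2.2.2.1.trans
          (max_le_max (mk_le_mk_of_subset (Iio_subset_Iio j.2.le)) le_rfl),
        trans' _ _ _ (ih j j.2).2.2.1 (ih j j.2).2.2.2.2.1⟩) fun j k hjk => by
          rcases hjk.eq_or_lt with rfl | hjk
          · exact refl' _ (ih j j.2).1
          · exact trans' _ _ _ ((ih k k.2).2.2.2.1 j hjk) (ih k k.2).2.2.2.2.1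
      rw [← hA i] at h1
      exact ⟨h1.1, h1.2.1, h1.2.2.1, fun j hj => h1.2.2.2.1 ⟨j, hj⟩, h1.2.2.2.2⟩
  refine ⟨fun i => (A i).2, fun i => (A i).1, fun i j hij => ?_, key⟩
  rcases hij.eq_or_lt with rfl | hij
  · exact refl' _ (key i).1
  · exact trans' _ _ _ ((key j).2.2.2.1 i hij) (key j).2.2.2.2.1

/-- at most `n` tasks, everything of size at most `n`: well-order `ι` (`exists_wellOrder`), use
`rec_family` with `m = n`, `μ = Order.succ n`, `size := fun _ => 0`, `Rel i _ b := Done i b`, and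
bound the final chain (if `ι` is empty take `a0`). -/
theorem rec_tasks {α ι : Type u} (Good : α → Prop) (Le : α → α → Prop) (Done : ι → α → Prop)
    (a0 : α) {n : Cardinal.{u}} (hn : ℵ₀ ≤ n) (hι : #ι ≤ n) (h0 : Good a0)
    (refl' : ∀ a, Good a → Le a a) (trans' : ∀ a b c, Le a b → Le b c → Le a c)
    (mono : ∀ i a b, Done i a → Le a b → Done i b)
    (step : ∀ i a, Good a → Le a0 a → ∃ b, Good b ∧ Le a b ∧ Done i b)
    (chain : ∀ (κ : Type u) [LinearOrder κ] [WellFoundedLT κ] [Nonempty κ] (F : κ → α),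
      #κ ≤ n → (∀ i, Good (F i)) → (∀ i j, i ≤ j → Le (F i) (F j)) →
      ∃ b, Good b ∧ ∀ i, Le (F i) b) :
    ∃ b, Good b ∧ Le a0 b ∧ ∀ i, Done i b := by
  rcases isEmpty_or_nonempty ι with he | ⟨⟨i0⟩⟩
  · exact ⟨a0, h0, refl' a0 h0, fun i => he.elim i⟩
  have : Nonempty ι := ⟨i0⟩
  obtain ⟨_, _⟩ := exists_wellFoundedLT ι
  obtain ⟨F, B, hF, hB⟩ := rec_family (ι := ι) Good Le (fun _ => 0) (fun i _ b => Done i b) a0
    (m := n) (μ := Order.succ n) hn (Order.lt_succ n)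
    (fun i => ((mk_set_le _).trans hι).trans_lt (Order.lt_succ n)) h0 zero_le refl' trans'
    (fun i a c _ _ h1 h2 _ => by
      obtain ⟨b, b1, b2, b3⟩ := step i a h1 h2
      exact ⟨b, b1, b2, b3, zero_le⟩)
    (fun κ _ _ _ G c _ h2 h3 h4 h5 => by
      obtain ⟨b, b1, b2⟩ := chain κ G (h3.trans (Order.lt_succ_iff.1 h2)) (fun i => (h4 i).1) h5
      exact ⟨b, b1, zero_le, b2⟩)
  obtain ⟨b, b1, b2⟩ := chain ι F hι (fun i => (hB i).1) hF
  exact ⟨b, b1, trans' _ _ _ (trans' _ _ _ (hB i0).2.2.1 (hB i0).2.2.2.2.1) (b2 i0),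
    fun i => mono i _ _ (hB i).2.2.2.2.2.1 (b2 i)⟩

end Vale.Agent.P307P
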