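import Vale.Agent.P307P.Api
import Vale.Agent.P307P.Rec

/-! Back and forth. `rec_family` along `μ.ord.ToType` on triples `(φ, D, D')` with
`Good := IsoOn φ D D' ∧ Str K D N₁ ∧ Str K D' N₂`, `Le := D ≤ D₁ ∧ EqOn φ ψ D`, `size = #D`,
enumerations `x i` of `N₁` and `y i` of `N₂`, `Rel i _ b := x i ∈ b.D ∧ y i ∈ b.D'`; step: hull and
`h₂` forth, then invert, hull and `h₁` back, invert again. The union (`isoOn_chain`) is an
isomorphism `N₁ ≃ N₂` (`IsoOn.exists_equiv`). -/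

open Cardinal FirstOrder Set
open FirstOrder.Language.Structure

universe u

namespace Vale.Agent.P307P

variable {L : FirstOrder.Language.{u, u}} {K : AEC L} {l θ : Cardinal.{u}}
  {W W' W'' : Type u} [L.Structure W] [L.Structure W'] [L.Structure W'']

theorem bf_forth (hl : K.LSBound l) {N₁ D : L.Substructure W} {N₂ D' : L.Substructure W'}
    {c : Cardinal.{u}} (hc : l ≤ c) (h₂ : UnivIn K N₂ c) {φ : W → W'} (hφ : IsoOn φ D D')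
    (s₁ : Str K D N₁) (s₂ : Str K D' N₂) (hD : #D ≤ c) {x : W} (hx : x ∈ N₁) :
    ∃ (ψ : W → W') (E : L.Substructure W) (E' : L.Substructure W'), IsoOn ψ E E' ∧ Str K E N₁ ∧
      Str K E' N₂ ∧ D ≤ E ∧ EqOn φ ψ D ∧ x ∈ E ∧ #E ≤ c := by
  have hinf : ℵ₀ ≤ c := hl.inf.trans hc
  obtain ⟨E, h1, h2, h3⟩ := exists_str_ls hl hc s₁.mem_right ((D : Set W) ∪ {x})
    (union_subset s₁.le (singleton_subset_iff.2 hx))
    (card_union_le hinf hD ((mk_singleton x).le.trans (one_le_aleph0.trans hinf)))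
  have h4 : D ≤ E := subset_union_left.trans h2
  obtain ⟨ψ, E', h5, h6, h7⟩ := h₂ W D E D' φ (s₁.coh h1 h4) h3 s₂ hφ
  exact ⟨ψ, E, E', h5, h1, h6, h4, h7, h2 (mem_union_right _ rfl), h3⟩

theorem bf_step (hl : K.LSBound l) {N₁ D : L.Substructure W} {N₂ D' : L.Substructure W'}
    {c : Cardinal.{u}} (hc : l ≤ c) (h₁ : UnivIn K N₁ c) (h₂ : UnivIn K N₂ c) {φ : W → W'}
    (hφ : IsoOn φ D D') (s₁ : Str K D N₁) (s₂ : Str K D' N₂) (hD : #D ≤ c) {x : W} (hx : x ∈ N₁)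
    {y : W'} (hy : y ∈ N₂) :
    ∃ (ψ : W → W') (E : L.Substructure W) (E' : L.Substructure W'), IsoOn ψ E E' ∧ Str K E N₁ ∧
      Str K E' N₂ ∧ D ≤ E ∧ EqOn φ ψ D ∧ x ∈ E ∧ y ∈ E' ∧ #E ≤ c := by
  have : Nonempty W := ⟨x⟩
  have : Nonempty W' := ⟨y⟩
  obtain ⟨ψ, E, E', a1, a2, a3, a4, a5, a6, a7⟩ := bf_forth hl hc h₂ hφ s₁ s₂ hD hx
  obtain ⟨σ, b1, b2, -⟩ := a1.exists_symm
  obtain ⟨τ, G', G, c1, c2, c3, c4, c5, c6, c7⟩ :=
    bf_forth hl hc h₁ b1 a3 a2 (a1.card_eq.le.trans a7) hy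
  obtain ⟨χ, d1, d2, -⟩ := c1.exists_symm
  have e1 : ∀ z ∈ E, τ (ψ z) = z := fun z hz => (c5 (a1.1.mapsTo hz)).symm.trans (b2 z hz)
  have e2 : E ≤ G := fun z hz => e1 z hz ▸ c1.1.mapsTo (c4 (a1.1.mapsTo hz))
  refine ⟨χ, G, G', d1, c3, c2, a4.trans e2, fun z hz => (a5 hz).trans ?_, e2 a6, c6,
    c1.card_eq.le.trans c7⟩
  have := d2 _ (c4 (a1.1.mapsTo (a4 hz)))
  rw [e1 z (a4 hz)] at this
  exact this.symm

theorem back_forth (hl : K.LSBound l) {N₁ A₁ : L.Substructure W} {N₂ A₂ : L.Substructure W'}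
    {m μ : Cardinal.{u}} (hm : l ≤ m) (hmμ : m < μ) (c₁ : #N₁ = μ) (c₂ : #N₂ = μ)
    (h₁ : ∀ n, m ≤ n → n < μ → UnivIn K N₁ n) (h₂ : ∀ n, m ≤ n → n < μ → UnivIn K N₂ n)
    {φ : W → W'} (hφ : IsoOn φ A₁ A₂) (s₁ : Str K A₁ N₁) (s₂ : Str K A₂ N₂) (hc : #A₁ ≤ m) :
    Nonempty (N₁ ≃[L] N₂) := by
  have hinf : ℵ₀ ≤ m := hl.inf.trans hm
  have : Nonempty μ.ord.ToType := nonempty_ord_toType (hinf.trans hmμ.le)
  obtain ⟨x⟩ : Nonempty (μ.ord.ToType ≃ N₁) := Cardinal.eq.1 ((mk_ord_toType μ).trans c₁.symm)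
  obtain ⟨y⟩ : Nonempty (μ.ord.ToType ≃ N₂) := Cardinal.eq.1 ((mk_ord_toType μ).trans c₂.symm)
  obtain ⟨F, B, hF, hB⟩ := rec_family (α := (W → W') × L.Substructure W × L.Substructure W')
    (ι := μ.ord.ToType) (fun a => IsoOn a.1 a.2.1 a.2.2 ∧ Str K a.2.1 N₁ ∧ Str K a.2.2 N₂)
    (fun a b => a.2.1 ≤ b.2.1 ∧ EqOn a.1 b.1 a.2.1) (fun a => #a.2.1)
    (fun i _ b => (x i : W) ∈ b.2.1 ∧ (y i : W') ∈ b.2.2) (φ, A₁, A₂) hinf hmμ
    mk_Iio_toType_ord_lt ⟨hφ, s₁, s₂⟩ hc (fun a _ => ⟨le_rfl, fun _ _ => rfl⟩)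
    (fun a b c h h' => ⟨h.1.trans h'.1, fun z hz => (h.2 hz).trans (h'.2 (h.1 hz))⟩)
    (fun i a c h1 h2 h3 _ h4 => by
      obtain ⟨ψ, E, E', a1, a2, a3, a4, a5, a6, a7, a8⟩ := bf_step hl (hm.trans h1) (h₁ c h1 h2)
        (h₂ c h1 h2) h3.1 h3.2.1 h3.2.2 h4 (x i).2 (y i).2
      exact ⟨(ψ, E, E'), ⟨a1, a2, a3⟩, ⟨a4, a5⟩, ⟨a6, a7⟩, a8⟩)
    (fun κ _ _ _ F c h1 _ h3 h4 h5 => by
      have m1 : Monotone fun i => (F i).2.1 := fun i j h => (h5 i j h).1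
      have m2 : Monotone fun i => (F i).2.2 := fun i j h =>
        ((h4 i).1.1.congr (h5 i j h).2).le (h4 j).1.1 (h5 i j h).1
      obtain ⟨ψ, a1, a2⟩ := isoOn_chain (fun i => (F i).1) (fun i => (F i).2.1)
        (fun i => (F i).2.2) (fun i => (h4 i).1.1) m1 fun i j h => (h5 i j h).2
      exact ⟨(ψ, ⨆ i, (F i).2.1, ⨆ i, (F i).2.2),
        ⟨a1, str_chain_smooth _ m1 fun i => (h4 i).1.2.1,
          str_chain_smooth _ m2 fun i => (h4 i).1.2.2⟩,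
        card_iSup_le _ m1 h1 h3 fun i => (h4 i).2,
        fun i => ⟨le_iSup (fun i => (F i).2.1) i, a2 i⟩⟩)
  obtain ⟨ψ, a1, -⟩ := isoOn_chain (fun i => (F i).1) (fun i => (F i).2.1)
    (fun i => (F i).2.2) (fun i => (hB i).1.1) (fun i j h => (hF i j h).1)
    fun i j h => (hF i j h).2
  have e1 : ⨆ i, (F i).2.1 = N₁ := le_antisymm (iSup_le fun i => (hB i).1.2.1.le) fun z hz => by
    have := (hB (x.symm ⟨z, hz⟩)).2.2.2.2.2.1.1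
    rw [Equiv.apply_symm_apply] at this
    exact le_iSup (fun i => (F i).2.1) _ this
  have e2 : ⨆ i, (F i).2.2 = N₂ := le_antisymm (iSup_le fun i => (hB i).1.2.2.le) fun z hz => by
    have := (hB (y.symm ⟨z, hz⟩)).2.2.2.2.2.1.2
    rw [Equiv.apply_symm_apply] at this
    exact le_iSup (fun i => (F i).2.2) _ this
  rw [e1, e2] at a1
  obtain ⟨e, -⟩ := a1.exists_equiv
  exact ⟨e⟩

end Vale.Agent.P307P
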