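import Vale.Agent.P307P.Dir0

/-! Directed unions (Iwamura). Induction on `#𝒟`. Finite: a directed finite family has a largest
member. Infinite: fix an upper bound function `ub : pairs → 𝒟`; enumerate `𝒟` by `(#𝒟).ord.ToType`;
if `𝒟` is countable build a cofinal `ω`-chain, otherwise let `𝒟 i` be the closure under `ub` of the
initial segment `Iic i` (size `≤ max #(Iic i) ℵ₀ < #𝒟`, directed, monotone in `i`).
For `dir_union` prove by the same induction; `Str K (sSup (𝒟 i)) (sSup (𝒟 j))` comes from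
`dir_smooth` and the induction hypothesis. -/

open Cardinal FirstOrder Set
open FirstOrder.Language.Structure

universe u

namespace Vale.Agent.P307P

variable {L : FirstOrder.Language.{u, u}} {K : AEC L} {l θ : Cardinal.{u}}
  {W W' W'' : Type u} [L.Structure W] [L.Structure W'] [L.Structure W'']

theorem dir_ind {P : Set (L.Substructure W) → Prop}
    (h1 : ∀ (𝒟 : Set (L.Substructure W)) (a : ULift.{u} ℕ → L.Substructure W), Monotone a →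
      (∀ i, a i ∈ 𝒟) → (∀ x ∈ 𝒟, ∃ i, x ≤ a i) → sSup 𝒟 = ⨆ i, a i → P 𝒟)
    (h2 : ∀ (ι : Type u) [LinearOrder ι] [WellFoundedLT ι] [Nonempty ι]
      (E : ι → Set (L.Substructure W)), Monotone E →
      (∀ i, (E i).Nonempty ∧ DirectedOn (· ≤ ·) (E i) ∧ P (E i)) → P (⋃ i, E i))
    (𝒟 : Set (L.Substructure W)) (hne : 𝒟.Nonempty) (hd : DirectedOn (· ≤ ·) 𝒟) : P 𝒟 := by
  induction h : #𝒟 using WellFoundedLT.induction generalizing 𝒟 with | ind c ih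
  subst h
  rcases le_or_gt #𝒟 ℵ₀ with hc | hc
  · obtain ⟨a, a1, a2, a3⟩ := dir_seq 𝒟 hne hd hc
    refine h1 𝒟 (fun i => a i.down) (fun i j k => a1 k) (fun i => a2 _)
      (fun x hx => (a3 x hx).elim fun i hi => ⟨⟨i⟩, hi⟩) (le_antisymm (sSup_le fun x hx =>
        (a3 x hx).elim fun i hi => le_iSup_of_le ⟨i⟩ hi) (iSup_le fun i => le_sSup (a2 _)))
  · obtain ⟨E, e1, e2, e3⟩ := dir_cover 𝒟 hd hc
    have := nonempty_ord_toType hc.le
    exact e2 ▸ h2 _ E e1 fun i => ⟨(e3 i).1, (e3 i).2.1,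
      ih _ (e3 i).2.2 _ (e3 i).1 (e3 i).2.1 rfl⟩

theorem dir_smooth {𝒟 : Set (L.Substructure W)} (hne : 𝒟.Nonempty)
    (hd : DirectedOn (· ≤ ·) 𝒟) {N : L.Substructure W} (h : ∀ A ∈ 𝒟, Str K A N) :
    Str K (sSup 𝒟) N := by
  revert h
  refine dir_ind (P := fun 𝒟 => (∀ A ∈ 𝒟, Str K A N) → Str K (sSup 𝒟) N)
    (fun 𝒟 a a1 a2 _ e h => e ▸ str_chain_smooth a a1 fun i => h _ (a2 i))
    (fun ι _ _ _ E e1 e2 h => ?_) 𝒟 hne hd
  rw [sSup_iUnion]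
  exact str_chain_smooth _ (fun i j k => sSup_le_sSup (e1 k)) fun i =>
    (e2 i).2.2 fun A hA => h A (mem_iUnion.2 ⟨i, hA⟩)

theorem dir_union {𝒟 : Set (L.Substructure W)} (hd : DirectedOn (· ≤ ·) 𝒟)
    (h : ∀ A ∈ 𝒟, ∀ B ∈ 𝒟, A ≤ B → Str K A B) : ∀ A ∈ 𝒟, Str K A (sSup 𝒟) := by
  intro A hA
  revert h
  refine fun h => dir_ind (P := fun 𝒟 => (∀ A ∈ 𝒟, ∀ B ∈ 𝒟, A ≤ B → Str K A B) →
    ∀ A ∈ 𝒟, Str K A (sSup 𝒟)) (fun 𝒟 a a1 a2 a3 e h A hA => ?_)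
    (fun ι _ _ _ E e1 e2 h A hA => ?_) 𝒟 ⟨A, hA⟩ hd h A hA
  · obtain ⟨i, hi⟩ := a3 A hA
    exact e ▸ (h A hA _ (a2 i) hi).trans
      (str_chain_union a (fun i j k => h _ (a2 i) _ (a2 j) (a1 k)) i)
  · have k : ∀ i, ∀ A ∈ E i, Str K A (sSup (E i)) := fun i => (e2 i).2.2 fun A hA B hB =>
      h A (mem_iUnion.2 ⟨i, hA⟩) B (mem_iUnion.2 ⟨i, hB⟩)
    obtain ⟨i, hi⟩ := mem_iUnion.1 hA
    rw [sSup_iUnion]
    exact (k i A hi).trans (str_chain_union (fun i => sSup (E i)) (fun i j l =>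
      dir_smooth (e2 i).1 (e2 i).2.1 fun B hB => k j B (e1 l hB)) i)

end Vale.Agent.P307P
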