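import Vale.Agent.P307P.Po2

/-! Strong embeddings as maps; amalgamation with size control. -/

open Cardinal FirstOrder Set
open FirstOrder.Language.Structure

universe u

namespace Vale.Agent.P307P

variable {L : FirstOrder.Language.{u, u}} {K : AEC L} {l θ : Cardinal.{u}}
  {W W' W'' : Type u} [L.Structure W] [L.Structure W'] [L.Structure W'']

theorem emb_iff {M N P : Type u} [L.Structure M] [L.Structure N] [L.Structure P]
    (f : M ↪[L] N) (g : N ↪[L] P) :
    Str K (g.comp f).toHom.range g.toHom.range ↔ K.Strong N f.toHom.range := by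
  rw [Language.Embedding.comp_toHom, Language.Hom.range_comp, Language.Hom.range_eq_map g.toHom,
    str_map_iff, str_top_iff]

theorem strong_comp {M N P : Type u} [L.Structure M] [L.Structure N] [L.Structure P]
    (f : M ↪[L] N) (g : N ↪[L] P) (hf : K.Strong N f.toHom.range)
    (hg : K.Strong P g.toHom.range) : K.Strong P (g.comp f).toHom.range := by
  exact (str_top_iff _).1 (((emb_iff f g).2 hf).trans ((str_top_iff _).2 hg))

theorem strong_coh {M N P : Type u} [L.Structure M] [L.Structure N] [L.Structure P]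
    (f : M ↪[L] N) (g : N ↪[L] P) (hM : K.Strong P (g.comp f).toHom.range)
    (hg : K.Strong P g.toHom.range) : K.Strong N f.toHom.range := by
  exact (emb_iff f g).1 (((str_top_iff _).2 hM).coh ((str_top_iff _).2 hg)
    (Language.Hom.range_comp_le_range f.toHom g.toHom))

theorem strong_equiv {M N : Type u} [L.Structure M] [L.Structure N] (e : M ≃[L] N)
    (hM : K.Mem M) : K.Strong N e.toEmbedding.toHom.range := by
  have h : e.toEmbedding.toHom.range = ⊤ := Language.Hom.range_eq_top.2 e.surjective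
  rw [h]
  exact K.strong_refl N (K.mem_iso M N e hM)

theorem mem_of_strong_range {M N : Type u} [L.Structure M] [L.Structure N] (f : M ↪[L] N)
    (hf : K.Strong N f.toHom.range) : K.Mem M := by
  exact K.mem_iso _ M f.equivRange.symm (K.mem_of_strong_left N _ hf)

theorem strong_subtype {N : Type u} [L.Structure N] (A : L.Substructure N) :
    K.Strong N A.subtype.toHom.range ↔ K.Strong N A := by
  rw [Language.Substructure.range_subtype]

/-- amalgamate with the hypothesis, then pass to a hull of size at most `n`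
(`Embedding.codRestrict`, `strong_coh`) -/
theorem amalg (hl : K.LSBound l) (hpo : K.HasPushouts) {M₀ M₁ M₂ : Type u} [L.Structure M₀]
    [L.Structure M₁] [L.Structure M₂] (f₁ : M₀ ↪[L] M₁) (f₂ : M₀ ↪[L] M₂)
    (h₁ : K.Strong M₁ f₁.toHom.range) (h₂ : K.Strong M₂ f₂.toHom.range) {n : Cardinal.{u}}
    (hn : l ≤ n) (c₁ : #M₁ ≤ n) (c₂ : #M₂ ≤ n) :
    ∃ (P : Type u) (_ : L.Structure P) (g₁ : M₁ ↪[L] P) (g₂ : M₂ ↪[L] P),
      K.Strong P g₁.toHom.range ∧ K.Strong P g₂.toHom.range ∧ (∀ x, g₁ (f₁ x) = g₂ (f₂ x)) ∧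
      #P ≤ n := by
  obtain ⟨P, _, g₁, g₂, s₁, s₂, hc, -⟩ := hpo M₀ M₁ M₂ f₁ f₂ h₁ h₂
  have hi : ℵ₀ ≤ n := hl.inf.trans hn
  obtain ⟨A, hA, hs, hAc⟩ := exists_str_ls hl hn (mem_top_iff.2 (K.mem_of_strong_right P _ s₁))
    (range g₁ ∪ range g₂) (fun _ _ => trivial)
    (card_union_le hi (mk_range_le.trans c₁) (mk_range_le.trans c₂))
  have hA' : K.Strong P A.subtype.toHom.range := (strong_subtype A).2 ((str_top_iff A).1 hA)
  refine ⟨A, inferInstance, g₁.codRestrict A fun x => hs (Or.inl ⟨x, rfl⟩),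
    g₂.codRestrict A fun x => hs (Or.inr ⟨x, rfl⟩), strong_coh _ A.subtype ?_ hA',
    strong_coh _ A.subtype ?_ hA', fun x => Subtype.ext (hc x), hAc⟩
  · rw [Language.Embedding.subtype_comp_codRestrict]
    exact s₁
  · rw [Language.Embedding.subtype_comp_codRestrict]
    exact s₂

theorem Solves.comp {n : Cardinal.{u}} {V V' V'' : Type u} [L.Structure V] [L.Structure V']
    [L.Structure V''] {f : V ↪[L] V'} (h : Solves K n f) (g : V' ↪[L] V'')
    (hg : K.Strong V'' g.toHom.range) : Solves K n (g.comp f) := by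
  intro A B _ a hA hB hc
  obtain ⟨g₀, h1, h2⟩ := h A B a hA hB hc
  exact ⟨g.comp g₀, strong_comp g₀ g h1 hg, fun x => congrArg g (h2 x)⟩

end Vale.Agent.P307P
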