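import Vale.Agent.P307P.Trans0

/-! Transport along an isomorphism of vocabularies. `K'.Mem M := @K.Mem M (e.toLHom.reduct M)`,
`K'.Strong N A := @K.Strong N (reduct) (the same subset, `LHom.substructureReduct`)`. Since `e` is
invertible, `L`-structures, substructures, homomorphisms, embeddings and isomorphisms correspond
to the `L'`-ones on the same types: the reduct along `e.invLHom` followed by the reduct along
`e.toLHom` gives the structure back (`Language.Structure.ext`, `e.left_inv`, `e.right_inv`). -/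

open Cardinal FirstOrder Set
open FirstOrder.Language.Structure

universe u

namespace Vale.Agent.P307P

variable {L : FirstOrder.Language.{u, u}} {K : AEC L} {l θ : Cardinal.{u}}
  {W W' W'' : Type u} [L.Structure W] [L.Structure W'] [L.Structure W'']

section
variable {L' : FirstOrder.Language.{u, u}} (φ : L →ᴸ L') {M N : Type u} [L'.Structure M]
  [L'.Structure N]

/-- a substructure as a substructure of the reduct -/
def trans_sub (A : L'.Substructure N) : @Language.Substructure L N (φ.reduct N) :=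
  @Language.Substructure.mk L N (φ.reduct N) A.carrier fun f => A.fun_mem (φ.onFunction f)

/-- a homomorphism as a homomorphism of the reducts -/
def trans_hom (h : M →[L'] N) : @Language.Hom L M N (φ.reduct M) (φ.reduct N) :=
  @Language.Hom.mk L M N (φ.reduct M) (φ.reduct N) h.toFun
    (fun f => h.map_fun' (φ.onFunction f)) fun r => h.map_rel' (φ.onRelation r)

/-- an embedding as an embedding of the reducts -/
def trans_emb (h : M ↪[L'] N) : @Language.Embedding L M N (φ.reduct M) (φ.reduct N) :=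
  @Language.Embedding.mk L M N (φ.reduct M) (φ.reduct N) h.toEmbedding
    (fun f => h.map_fun' (φ.onFunction f)) fun r => h.map_rel' (φ.onRelation r)

/-- an isomorphism as an isomorphism of the reducts -/
def trans_iso (h : M ≃[L'] N) : @Language.Equiv L M N (φ.reduct M) (φ.reduct N) :=
  @Language.Equiv.mk L M N (φ.reduct M) (φ.reduct N) h.toEquiv
    (fun f => h.map_fun' (φ.onFunction f)) fun r => h.map_rel' (φ.onRelation r)

/-- the class of structures whose reduct is in `K` -/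
def trans_aec (K : AEC L) : AEC L' where
  Mem M _ := @K.Mem M (φ.reduct M)
  Strong N _ A := @K.Strong N (φ.reduct N) (trans_sub φ A)
  mem_of_strong_left N _ A h := @K.mem_of_strong_left N (φ.reduct N) (trans_sub φ A) h
  mem_of_strong_right N _ A h := @K.mem_of_strong_right N (φ.reduct N) (trans_sub φ A) h
  mem_iso M N _ _ e h := @K.mem_iso M N (φ.reduct M) (φ.reduct N) (trans_iso φ e) h
  strong_iso M N _ _ e A h :=
    @K.strong_iso M N (φ.reduct M) (φ.reduct N) (trans_iso φ e) (trans_sub φ A) h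
  strong_refl N _ h := @K.strong_refl N (φ.reduct N) h
  strong_trans N _ A B h h1 h2 :=
    @K.strong_trans N (φ.reduct N) (trans_sub φ A) (trans_sub φ B) h h1 h2
  coherence N _ A B h h1 h2 := @K.coherence N (φ.reduct N) (trans_sub φ A) (trans_sub φ B) h h1 h2
  chain_union U _ ι _ _ _ A h h' :=
    @K.chain_union U (φ.reduct U) ι _ _ _ (fun i => trans_sub φ (A i)) h h'
  chain_smooth N _ ι _ _ _ A B h h1 h2 :=
    @K.chain_smooth N (φ.reduct N) ι _ _ _ (fun i => trans_sub φ (A i)) (trans_sub φ B) h h1 h2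

end

section
variable {L' : FirstOrder.Language.{u, u}} (e : L ≃ᴸ L') {M N : Type u}

theorem trans_fun {n : ℕ} (f : L'.Functions n) : ∃ f', e.toLHom.onFunction f' = f :=
  ⟨e.invLHom.onFunction f, congrArg (fun ψ : L' →ᴸ L' => ψ.onFunction f) e.right_inv⟩

theorem trans_rel {n : ℕ} (r : L'.Relations n) : ∃ r', e.toLHom.onRelation r' = r :=
  ⟨e.invLHom.onRelation r, congrArg (fun ψ : L' →ᴸ L' => ψ.onRelation r) e.right_inv⟩

theorem trans_str (s : L.Structure M) :
    ∃ s' : L'.Structure M, @Language.LHom.reduct L L' e.toLHom M s' = s :=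
  ⟨e.invLHom.reduct M, congrArg (fun ψ : L →ᴸ L => ψ.reduct M) e.left_inv⟩

include e in
theorem trans_card : L'.card ≤ L.card := by
  refine mk_le_of_surjective (f := Sum.map (Sigma.map id e.toLHom.onFunction)
    (Sigma.map id e.toLHom.onRelation)) ?_
  rintro (⟨n, f⟩ | ⟨n, r⟩)
  · obtain ⟨f', rfl⟩ := trans_fun e f
    exact ⟨Sum.inl ⟨n, f'⟩, rfl⟩
  · obtain ⟨r', rfl⟩ := trans_rel e r
    exact ⟨Sum.inr ⟨n, r'⟩, rfl⟩

variable [L'.Structure M] [L'.Structure N]

theorem trans_sub_surj (A : @Language.Substructure L N (e.toLHom.reduct N)) :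
    ∃ A' : L'.Substructure N, trans_sub e.toLHom A' = A := by
  obtain ⟨s, hs⟩ := A
  refine ⟨⟨s, fun f => ?_⟩, rfl⟩
  obtain ⟨f', rfl⟩ := trans_fun e f
  exact hs f'

theorem trans_hom_surj (h : @Language.Hom L M N (e.toLHom.reduct M) (e.toLHom.reduct N)) :
    ∃ h' : M →[L'] N, trans_hom e.toLHom h' = h := by
  obtain ⟨g, h1, h2⟩ := h
  refine ⟨⟨g, fun f => ?_, fun r => ?_⟩, rfl⟩
  · obtain ⟨f', rfl⟩ := trans_fun e f
    exact h1 f'
  · obtain ⟨r', rfl⟩ := trans_rel e r
    exact h2 r'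

theorem trans_emb_surj (h : @Language.Embedding L M N (e.toLHom.reduct M) (e.toLHom.reduct N)) :
    ∃ h' : M ↪[L'] N, trans_emb e.toLHom h' = h := by
  obtain ⟨g, h1, h2⟩ := h
  refine ⟨⟨g, fun f => ?_, fun r => ?_⟩, rfl⟩
  · obtain ⟨f', rfl⟩ := trans_fun e f
    exact h1 f'
  · obtain ⟨r', rfl⟩ := trans_rel e r
    exact h2 r'

theorem trans_iso_surj (h : @Language.Equiv L M N (e.toLHom.reduct M) (e.toLHom.reduct N)) :
    Nonempty (M ≃[L'] N) := by
  obtain ⟨g, h1, h2⟩ := h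
  refine ⟨⟨g, fun f => ?_, fun r => ?_⟩⟩
  · obtain ⟨f', rfl⟩ := trans_fun e f
    exact h1 f'
  · obtain ⟨r', rfl⟩ := trans_rel e r
    exact h2 r'

end

theorem exists_transport {L' : FirstOrder.Language.{u, u}} (e : L ≃ᴸ L') (K : AEC L) :
    ∃ K' : AEC L', (∀ l, K.LSBound l → K'.LSBound l) ∧ (K.HasPushouts → K'.HasPushouts) ∧
      ∀ k, K.Categorical k ↔ K'.Categorical k := by
  refine ⟨trans_aec e.toLHom K, fun l h => ⟨(add_le_add_left (trans_card e) _).trans h.1,
    fun M _ hM s => ?_⟩, fun h M₀ M₁ M₂ _ _ _ f₁ f₂ h1 h2 => ?_, fun k => ⟨fun h => ⟨?_,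
    fun M N _ _ hM hN h1 h2 => ?_⟩, fun h => ⟨?_, fun M N sM sN hM hN h1 h2 => ?_⟩⟩⟩
  · obtain ⟨A, hA⟩ := @h.2 M (e.toLHom.reduct M) hM s
    obtain ⟨A', rfl⟩ := trans_sub_surj e A
    exact ⟨A', hA⟩
  · obtain ⟨P, sP, g₁, g₂, k1, k2, k3, k4, k5⟩ := @h M₀ M₁ M₂ (e.toLHom.reduct M₀)
      (e.toLHom.reduct M₁) (e.toLHom.reduct M₂) (trans_emb _ f₁) (trans_emb _ f₂) h1 h2
    obtain ⟨sP, rfl⟩ := trans_str e sP
    obtain ⟨g₁, rfl⟩ := trans_emb_surj e g₁
    obtain ⟨g₂, rfl⟩ := trans_emb_surj e g₂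
    refine ⟨P, sP, g₁, g₂, k1, k2, k3, k4, fun Q _ hQ h₁ h₂ k6 => ?_⟩
    obtain ⟨g, k7, k8⟩ := @k5 Q (e.toLHom.reduct Q) hQ (trans_hom _ h₁) (trans_hom _ h₂) k6
    obtain ⟨g, rfl⟩ := trans_hom_surj e g
    exact ⟨g, k7, fun y hy => Language.Hom.ext fun x =>
      congrArg (fun z => @Language.Hom.toFun L P Q (e.toLHom.reduct P) (e.toLHom.reduct Q) z x)
        (k8 (trans_hom _ y) hy)⟩
  · obtain ⟨M, sM, hM⟩ := h.1
    obtain ⟨sM, rfl⟩ := trans_str e sM
    exact ⟨M, sM, hM⟩
  · exact (@h.2 M N (e.toLHom.reduct M) (e.toLHom.reduct N) hM hN h1 h2).elim (trans_iso_surj e)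
  · obtain ⟨M, sM, hM⟩ := h.1
    exact ⟨M, e.toLHom.reduct M, hM⟩
  · obtain ⟨sM, rfl⟩ := trans_str e sM
    obtain ⟨sN, rfl⟩ := trans_str e sN
    exact (h.2 M N hM hN h1 h2).map (trans_iso _)

end Vale.Agent.P307P
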