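import Vale.Agent.P307P.Pm0

/-! Structures on subsets of a fixed type. -/

open Cardinal FirstOrder Set
open FirstOrder.Language.Structure

universe u

namespace Vale.Agent.P307P

variable {L : FirstOrder.Language.{u, u}} {K : AEC L} {l θ : Cardinal.{u}}
  {W W' W'' : Type u} [L.Structure W] [L.Structure W'] [L.Structure W'']

variable {Ω : Type u}

theorem pm_key {ι : Type u} [LinearOrder ι] {M : ι → PM L Ω}
    (h : ∀ i j, i ≤ j → PM.Le K (M i) (M j)) {n : ℕ} (i j : ι) (y : Fin n → (M i).s)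
    (z : Fin n → (M j).s) (hyz : ∀ k, (y k : Ω) = z k) :
    (∀ f : L.Functions n, ((funMap f y : (M i).s) : Ω) = (funMap f z : (M j).s)) ∧
      ∀ r : L.Relations n, RelMap r y ↔ RelMap r z := by
  wlog hij : i ≤ j generalizing i j
  · have := this j i z y (fun k => (hyz k).symm) (le_of_not_ge hij)
    exact ⟨fun f => (this.1 f).symm, fun r => (this.2 r).symm⟩
  obtain ⟨e, he, -⟩ := h i j hij
  obtain rfl : z = e ∘ y := funext fun k => Subtype.ext ((hyz k).symm.trans (he _).symm)
  exact ⟨fun f => by rw [← e.map_fun, he], fun r => (e.map_rel r y).symm⟩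

/-- The structure on the union. -/
def pm_U {ι : Type u} (M : ι → PM L Ω) (t : ∀ n : ℕ, (Fin n → ↥(⋃ i, (M i).s)) → ι)
    (ht : ∀ n x k, (x k : Ω) ∈ (M (t n x)).s) : PM L Ω :=
  ⟨⋃ i, (M i).s, ⟨fun {n} f x => inclusion (subset_iUnion (fun i => (M i).s) (t n x))
      (funMap f fun k => (⟨x k, ht n x k⟩ : (M (t n x)).s)),
    fun {n} r x => RelMap r fun k => (⟨x k, ht n x k⟩ : (M (t n x)).s)⟩⟩

/-- The union. Define the structure on `⋃ i, (M i).s` by choosing for each tuple an index whose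
carrier contains it (finite tuples, linear order); it does not depend on the index since the
inclusions are embeddings. Then `K.chain_union` for the ranges of the inclusions. -/
theorem PM.exists_union {ι : Type u} [LinearOrder ι] [WellFoundedLT ι] [Nonempty ι]
    (M : ι → PM L Ω) (h : ∀ i j, i ≤ j → PM.Le K (M i) (M j)) :
    ∃ U : PM L Ω, U.s = ⋃ i, (M i).s ∧ ∀ i, PM.Le K (M i) U := by
  have ex : ∀ (n : ℕ) (x : Fin n → ↥(⋃ i, (M i).s)), ∃ i, ∀ k, (x k : Ω) ∈ (M i).s := fun n x => by
    choose a ha using fun k => mem_iUnion.1 (x k).2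
    obtain ⟨i, hi⟩ := Finite.exists_le a
    exact ⟨i, fun k => (h _ _ (hi k)).subset (ha k)⟩
  choose t ht using ex
  have k := fun i n (x : Fin n → (M i).s) => pm_key h i _ x
    (fun k => ⟨_, ht n (inclusion (subset_iUnion (fun i => (M i).s) i) ∘ x) k⟩) fun _ => rfl
  let g : ∀ i, (M i).s ↪[L] (pm_U M t ht).s := fun i =>
    ⟨⟨inclusion (subset_iUnion (fun i => (M i).s) i), inclusion_injective _⟩,
      fun f x => Subtype.ext ((k i _ x).1 f), fun r x => ((k i _ x).2 r).symm⟩
  refine ⟨pm_U M t ht, rfl, fun i => ⟨g i, fun _ => rfl,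
    (K.chain_union (pm_U M t ht).s ι (fun i => (g i).toHom.range) (fun i j hij => ?_) fun x => ?_).2 i⟩⟩
  · obtain ⟨e, he, hs⟩ := h i j hij
    have := (str_map_iff (g j) _ _).2 ((str_top_iff _).2 hs)
    rw [← Language.Hom.range_eq_map, ← Language.Hom.range_comp,
      show (g j).toHom.comp e.toHom = (g i).toHom from
        Language.Hom.ext fun x => Subtype.ext (he x)] at this
    exact this
  · obtain ⟨i, hi⟩ := mem_iUnion.1 x.2
    exact ⟨i, ⟨x, hi⟩, rfl⟩

end Vale.Agent.P307P
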