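import Vale.Agent.P307P.Dir
import Vale.Agent.P307P.Pm

/-! A class is determined by its small models. For `M` in `K₁` let `𝒟` be the set of `A` with
`Str K₁ A ⊤` and `#A ≤ l`; it is nonempty, directed (hulls), `sSup 𝒟 = ⊤`, and for `A ≤ B` in `𝒟`
`Str K₁ A B` (coherence) so `Str K₂ A B` by `hs`; `dir_union` for `K₂`.
`cat_iff_of_code`: every structure of size `≤ l` is isomorphic to some `M.s`, `M : PM L l.out`
(`PM.exists_copy`); transport `Strong` with `strong_iso` in both directions. -/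

open Cardinal FirstOrder Set
open FirstOrder.Language.Structure

universe u

namespace Vale.Agent.P307P

variable {L : FirstOrder.Language.{u, u}} {K : AEC L} {l θ : Cardinal.{u}}
  {W W' W'' : Type u} [L.Structure W] [L.Structure W'] [L.Structure W'']

theorem mem_of_small {K₁ K₂ : AEC L} (h₁ : K₁.LSBound l)
    (hs : ∀ (N : Type u) [L.Structure N] (A : L.Substructure N), #N ≤ l → K₁.Strong N A →
      K₂.Strong N A) (M : Type u) [L.Structure M] (hM : K₁.Mem M) : K₂.Mem M := by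
  let 𝒟 : Set (L.Substructure M) := {A | Str K₁ A ⊤ ∧ #A ≤ l}
  have ht : K₁.Mem (⊤ : L.Substructure M) := mem_top_iff.2 hM
  have hull : ∀ s : Set M, #s ≤ l → ∃ A ∈ 𝒟, s ⊆ A := fun s hs' => by
    obtain ⟨A, h1, h2, h3⟩ := exists_str_ls h₁ le_rfl ht s (fun _ _ => trivial) hs'
    exact ⟨A, ⟨h1, h3⟩, h2⟩
  have hd : DirectedOn (· ≤ ·) 𝒟 := by
    intro A hA B hB
    obtain ⟨C, hC, hs'⟩ := hull ((A : Set M) ∪ B) (card_union_le h₁.inf hA.2 hB.2)
    exact ⟨C, hC, fun x hx => hs' (Or.inl hx), fun x hx => hs' (Or.inr hx)⟩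
  obtain ⟨A₀, hA₀, -⟩ := hull ∅ (by simp)
  have hsup : sSup 𝒟 = ⊤ := by
    refine top_le_iff.1 (fun x _ => ?_)
    obtain ⟨A, hA, hx⟩ := hull {x} (by
      rw [Cardinal.mk_singleton]; exact Cardinal.one_le_aleph0.trans h₁.inf)
    exact (le_sSup hA : A ≤ sSup 𝒟) (hx rfl)
  have hu := dir_union (K := K₂) hd (fun A hA B hB hAB =>
    ⟨hAB, hs B _ hB.2 (hA.1.coh hB.1 hAB).2⟩) A₀ hA₀
  rw [hsup] at hu
  exact mem_top_iff.1 hu.mem_right

theorem cat_iff_of_code {K₁ K₂ : AEC L} (h₁ : K₁.LSBound l) (h₂ : K₂.LSBound l)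
    (hs : ∀ (M : PM L l.out) (A : L.Substructure M.s), K₁.Strong M.s A ↔ K₂.Strong M.s A)
    (k : Cardinal.{u}) : K₁.Categorical k ↔ K₂.Categorical k := by
  have key : ∀ (K₁ K₂ : AEC L),
      (∀ (M : PM L l.out) (A : L.Substructure M.s), K₁.Strong M.s A → K₂.Strong M.s A) →
      ∀ (N : Type u) [L.Structure N] (A : L.Substructure N), #N ≤ l → K₁.Strong N A →
        K₂.Strong N A := by
    intro K₁ K₂ H N _ A hN hA
    obtain ⟨M, ⟨e⟩⟩ := PM.exists_copy (L := L) (Ω := l.out) N (by rwa [Cardinal.mk_out])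
    have h3 := K₂.strong_iso _ _ e.symm _ (H M _ (K₁.strong_iso _ _ e A hA))
    have h4 : (A.map e.toHom).map e.symm.toHom = A := by
      ext x
      constructor
      · rintro ⟨_, ⟨y, hy, rfl⟩, rfl⟩
        simpa using hy
      · intro hx
        exact ⟨e x, ⟨x, hx, rfl⟩, by simp⟩
    rwa [h4] at h3
  have m12 := mem_of_small h₁ (key K₁ K₂ fun M A => (hs M A).1)
  have m21 := mem_of_small h₂ (key K₂ K₁ fun M A => (hs M A).2)
  constructor
  · rintro ⟨⟨M, _, hM, hc⟩, hu⟩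
    exact ⟨⟨M, inferInstance, m12 M hM, hc⟩, fun M N _ _ a b => hu M N (m21 M a) (m21 N b)⟩
  · rintro ⟨⟨M, _, hM, hc⟩, hu⟩
    exact ⟨⟨M, inferInstance, m21 M hM, hc⟩, fun M N _ _ a b => hu M N (m12 M a) (m12 N b)⟩

end Vale.Agent.P307P
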