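import Vale.Agent.P307P.Api0

/-! The class axioms inside an ambient structure (compare `Vale/Agent/P307M/Api0.lean`, `Api.lean`). -/

open Cardinal FirstOrder Set
open FirstOrder.Language.Structure

universe u

namespace Vale.Agent.P307P

variable {L : FirstOrder.Language.{u, u}} {K : AEC L} {l θ : Cardinal.{u}}
  {W W' W'' : Type u} [L.Structure W] [L.Structure W'] [L.Structure W'']

theorem exists_str_ls {n : Cardinal.{u}} (hl : K.LSBound l) (hn : l ≤ n) {N : L.Substructure W}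
    (hN : K.Mem N) (t : Set W) (ht : t ⊆ N) (htn : #t ≤ n) :
    ∃ A : L.Substructure W, Str K A N ∧ t ⊆ A ∧ #A ≤ n := by
  have hinf : ℵ₀ ≤ n := hl.inf.trans hn
  obtain ⟨A, hA, hs, hc⟩ := hl.2 N hN (N.subtype ⁻¹' t)
  have e : (A.map N.subtype.toHom).comap N.subtype.toHom = A := by
    ext x
    constructor
    · rintro ⟨y, hy, hyx⟩
      have e2 : y = x := N.subtype.injective hyx
      rw [← e2]
      exact hy
    · intro hx
      exact ⟨x, hx, rfl⟩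
  refine ⟨A.map N.subtype.toHom, ⟨?_, ?_⟩, fun x hx => ?_, ?_⟩
  · rintro _ ⟨y, -, rfl⟩
    exact y.2
  · rw [e]
    exact hA
  · exact ⟨⟨x, ht hx⟩, hs hx, rfl⟩
  · rw [(isoOn_embedding N.subtype A).card_eq]
    refine hc.trans (Cardinal.add_le_of_le hinf ?_ hn)
    exact (Cardinal.mk_preimage_of_injective _ _ N.subtype.injective).trans htn

/-- a hull of exact size -/
theorem exists_str_card {n : Cardinal.{u}} (hl : K.LSBound l) (hn : l ≤ n)
    {N : L.Substructure W} (hN : K.Mem N) (hnN : n ≤ #N) (t : Set W) (ht : t ⊆ N)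
    (htn : #t ≤ n) : ∃ A : L.Substructure W, Str K A N ∧ t ⊆ A ∧ #A = n := by
  have hinf : ℵ₀ ≤ n := hl.inf.trans hn
  obtain ⟨r, hr, hrn⟩ := exists_subset_card hnN
  obtain ⟨A, hA, hs, hc⟩ := exists_str_ls hl hn hN (t ∪ r) (Set.union_subset ht hr)
    (card_union_le hinf htn hrn.le)
  refine ⟨A, hA, fun x hx => hs (Or.inl hx), le_antisymm hc ?_⟩
  exact hrn.ge.trans (card_le_of_subset fun x hx => hs (Or.inr hx))

theorem exists_omega_chain {n : Cardinal.{u}} (hl : K.LSBound l) (hn : l ≤ n)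
    {N : L.Substructure W} (hN : K.Mem N) (g : L.Substructure W → Set W)
    (hg : ∀ A : L.Substructure W, Str K A N → #A ≤ n → g A ⊆ N ∧ #(g A) ≤ n)
    (s : Set W) (hs : s ⊆ N) (hsn : #s ≤ n) :
    ∃ A : ℕ → L.Substructure W, Monotone A ∧ s ⊆ A 0 ∧
      ∀ i, Str K (A i) N ∧ #(A i) ≤ n ∧ g (A i) ⊆ A (i + 1) := by
  have hinf : ℵ₀ ≤ n := hl.inf.trans hn
  have step : ∀ A : {A : L.Substructure W // Str K A N ∧ #A ≤ n},
      ∃ B : {A : L.Substructure W // Str K A N ∧ #A ≤ n}, A.1 ≤ B.1 ∧ g A.1 ⊆ B.1 := by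
    rintro ⟨A, hA, hAn⟩
    obtain ⟨h1, h2⟩ := hg A hA hAn
    obtain ⟨B, hB, hsub, hBn⟩ := exists_str_ls hl hn hN ((A : Set W) ∪ g A)
      (Set.union_subset hA.1 h1) (card_union_le hinf hAn h2)
    exact ⟨⟨B, hB, hBn⟩, fun x hx => hsub (Or.inl hx), fun x hx => hsub (Or.inr hx)⟩
  choose f hf1 hf2 using step
  obtain ⟨A0, hA0, hs0, hn0⟩ := exists_str_ls hl hn hN s hs hsn
  refine ⟨fun i => (f^[i] ⟨A0, hA0, hn0⟩).1, monotone_nat_of_le_succ fun i => ?_, hs0,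
    fun i => ⟨(f^[i] ⟨A0, hA0, hn0⟩).2.1, (f^[i] ⟨A0, hA0, hn0⟩).2.2, ?_⟩⟩
  · simp only [Function.iterate_succ_apply']
    exact hf1 _
  · simp only [Function.iterate_succ_apply']
    exact hf2 _

/-- categoricity for substructures of ambient structures -/
theorem exists_isoOn_of_cat [Nonempty W'] {k : Cardinal.{u}} (hk : K.Categorical k)
    {A : L.Substructure W} {A' : L.Substructure W'} (hA : K.Mem A) (hA' : K.Mem A')
    (h1 : #A = k) (h2 : #A' = k) : ∃ φ : W → W', IsoOn φ A A' := by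
  obtain ⟨e⟩ := hk.2 A A' hA hA' h1 h2
  obtain ⟨φ, hφ, -⟩ := exists_isoOn_of_equiv e
  exact ⟨φ, hφ⟩

theorem UnivIn.mono {N : L.Substructure W} {m n : Cardinal.{u}} (h : UnivIn K N n)
    (hmn : m ≤ n) : UnivIn K N m := by
  exact fun W₂ _ A B A' φ hAB hB hA' hφ => h W₂ A B A' φ hAB (hB.trans hmn) hA' hφ

/-- invariance of the extension property -/
theorem UnivIn.iso [Nonempty W] {N : L.Substructure W} {N' : L.Substructure W'}
    {n : Cardinal.{u}} (h : UnivIn K N n) {φ : W → W'} (hφ : IsoOn φ N N') : UnivIn K N' n := by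
  intro W₂ _ A B A' ψ hAB hB hA' hψ
  obtain ⟨χ, hχ, -, i2⟩ := hφ.exists_symm
  obtain ⟨A₁, -, hA₁⟩ := hχ.restrict hA'.le
  obtain ⟨ψ₁, B₁, hψ₁, hB₁, he⟩ := h W₂ A B A₁ (χ ∘ ψ) hAB hB (hχ.str hA₁ hA') (hA₁.comp hψ)
  obtain ⟨B', -, hB'⟩ := hφ.restrict hB₁.le
  refine ⟨φ ∘ ψ₁, B', hB'.comp hψ₁, hφ.str hB' hB₁, fun x hx => ?_⟩
  have e : ψ₁ x = χ (ψ x) := (he hx).symm
  simp only [Function.comp_apply, e]
  exact (i2 _ (hA'.le (hψ.1.mapsTo hx))).symm

end Vale.Agent.P307P
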