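import Vale.Agent.P307P.Base

/-! Cardinalities of substructures (compare `Vale/Agent/P307M/Ord0.lean`, `Ord.lean`). -/

open Cardinal FirstOrder Set
open FirstOrder.Language.Structure

universe u

namespace Vale.Agent.P307P

variable {L : FirstOrder.Language.{u, u}} {K : AEC L} {l θ : Cardinal.{u}}
  {W W' W'' : Type u} [L.Structure W] [L.Structure W'] [L.Structure W'']

theorem card_mono {A B : L.Substructure W} (h : A ≤ B) : #A ≤ #B := by
  exact Cardinal.mk_le_mk_of_subset h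

theorem card_le_of_subset {t : Set W} {A : L.Substructure W} (h : t ⊆ A) : #t ≤ #A := by
  exact Cardinal.mk_le_mk_of_subset h

theorem exists_subset_card {M : L.Substructure W} {c : Cardinal.{u}} (hc : c ≤ #M) :
    ∃ t : Set W, t ⊆ M ∧ #t = c := by
  exact Cardinal.le_mk_iff_exists_subset.1 hc

theorem exists_not_mem_of_card_lt {A B : L.Substructure W} (h : #A < #B) : ∃ x ∈ B, x ∉ A := by
  by_contra hc
  push Not at hc
  exact absurd (card_mono (show B ≤ A from hc)) (not_le.2 h)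

theorem mem_iSup_mono {ι : Type u} [LinearOrder ι] [Nonempty ι] (A : ι → L.Substructure W)
    (hA : Monotone A) (x : W) : x ∈ ⨆ i, A i ↔ ∃ i, x ∈ A i := by
  exact Language.Substructure.mem_iSup_of_directed hA.directed_le

theorem mem_iSup_nat (A : ℕ → L.Substructure W) (hA : Monotone A) (x : W) :
    x ∈ ⨆ i, A i ↔ ∃ i, x ∈ A i := by
  exact Language.Substructure.mem_iSup_of_directed hA.directed_le

theorem card_iSup_le {ι : Type u} [LinearOrder ι] [Nonempty ι] (A : ι → L.Substructure W)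
    (hA : Monotone A) {n : Cardinal.{u}} (hn : ℵ₀ ≤ n) (hι : #ι ≤ n) (h : ∀ i, #(A i) ≤ n) :
    #(⨆ i, A i : L.Substructure W) ≤ n := by
  have e : ((⨆ i, A i : L.Substructure W) : Set W) ⊆ ⋃ i, (A i : Set W) := fun x hx =>
    mem_iUnion.2 ((mem_iSup_mono A hA x).1 hx)
  exact (Cardinal.mk_le_mk_of_subset e).trans ((mk_iUnion_le _).trans
    ((mul_le_mul' hι (ciSup_le' h)).trans (mul_eq_self hn).le))

theorem card_iSup_nat_le (A : ℕ → L.Substructure W) (hA : Monotone A) {n : Cardinal.{u}}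
    (hn : ℵ₀ ≤ n) (h : ∀ i, #(A i) ≤ n) : #(⨆ i, A i : L.Substructure W) ≤ n := by
  have e : (⨆ i, A i : L.Substructure W) = ⨆ i : ULift.{u} ℕ, A i.down :=
    (Equiv.ulift.surjective.iSup_comp A).symm
  rw [e]
  exact card_iSup_le (fun i : ULift.{u} ℕ => A i.down) (fun i j hij => hA hij) hn
    (by simpa using hn) fun i => h _

theorem card_union_le {s t : Set W} {n : Cardinal.{u}} (hn : ℵ₀ ≤ n) (hs : #s ≤ n)
    (ht : #t ≤ n) : #(s ∪ t : Set W) ≤ n := by
  exact (Cardinal.mk_union_le _ _).trans (Cardinal.add_le_of_le hn hs ht)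

theorem nonempty_ord_toType {n : Cardinal.{u}} (hn : ℵ₀ ≤ n) : Nonempty n.ord.ToType := by
  rw [← mk_ne_zero_iff, mk_ord_toType]
  exact (aleph0_pos.trans_le hn).ne'

theorem exists_gt_toType {n : Cardinal.{u}} (hn : ℵ₀ ≤ n) (i : n.ord.ToType) : ∃ j, i < j := by
  have := Cardinal.noMaxOrder hn
  exact exists_gt i

theorem bdd_of_card_le {n : Cardinal.{u}} (hn : ℵ₀ ≤ n) (t : Set (Order.succ n).ord.ToType)
    (ht : #t ≤ n) : ∃ i, ∀ j ∈ t, j < i := by
  by_contra h
  push Not at h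
  have h1 : (Set.univ : Set (Order.succ n).ord.ToType) ⊆ ⋃ j : t, Set.Iio j.1 := fun i _ => by
    obtain ⟨i', hi⟩ := exists_gt_toType (hn.trans (Order.le_succ n)) i
    obtain ⟨j, hj, h2⟩ := h i'
    exact Set.mem_iUnion.2 ⟨⟨j, hj⟩, hi.trans_le h2⟩
  have h2 := (mk_le_mk_of_subset h1).trans (mk_iUnion_le_sum_mk.trans
    (sum_le_sum _ (fun _ => n) fun j => Order.lt_succ_iff.1 (by simpa using mk_Iio_lt j.1)))
  rw [mk_univ, mk_ord_toType, sum_const'] at h2
  exact absurd (h2.trans ((mul_le_mul_left ht n).trans (mul_eq_self hn).le))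
    (not_le.2 (Order.lt_succ n))

/-- a small subset of the union of a chain of length `n⁺` lies in one member -/
theorem subset_member {α : Type u} {n : Cardinal.{u}} (hn : ℵ₀ ≤ n)
    (Q : (Order.succ n).ord.ToType → Set α) (hQ : Monotone Q) (t : Set α)
    (ht : #t ≤ n) (hsub : t ⊆ ⋃ i, Q i) : ∃ i, t ⊆ Q i := by
  have h1 : ∀ x : t, ∃ i, x.1 ∈ Q i := fun x => mem_iUnion.1 (hsub x.2)
  choose g hg using h1
  obtain ⟨i, hi⟩ := bdd_of_card_le hn (Set.range g) (mk_range_le.trans ht)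
  exact ⟨i, fun x hx => hQ (hi _ ⟨⟨x, hx⟩, rfl⟩).le (hg ⟨x, hx⟩)⟩

end Vale.Agent.P307P
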