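import Vale.Agent.P307P.Map
import Vale.Agent.P307P.Ord0

/-! The class axioms inside an ambient structure (compare `Vale/Agent/P307M/Api0.lean`, `Api.lean`). -/

open Cardinal FirstOrder Set
open FirstOrder.Language.Structure

universe u

namespace Vale.Agent.P307P

variable {L : FirstOrder.Language.{u, u}} {K : AEC L} {l θ : Cardinal.{u}}
  {W W' W'' : Type u} [L.Structure W] [L.Structure W'] [L.Structure W'']

theorem Str.le {A B : L.Substructure W} (h : Str K A B) : A ≤ B := h.1

theorem api0_strong_iff {M N : Type u} [L.Structure M] [L.Structure N] (e : M ≃[L] N)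
    (A : L.Substructure M) (B : L.Substructure N)
    (h : ∀ x, e x ∈ B ↔ x ∈ A) : K.Strong N B ↔ K.Strong M A := by
  constructor
  · intro hB
    have h1 := K.strong_iso _ _ e.symm B hB
    have h2 : B.map e.symm.toHom = A := by
      ext x
      constructor
      · rintro ⟨y, hy, rfl⟩
        apply (h _).1
        simpa using hy
      · intro hx
        exact ⟨e x, (h x).2 hx, by simp⟩
    rwa [h2] at h1
  · intro hA
    have h1 := K.strong_iso _ _ e A hA
    have h2 : A.map e.toHom = B := by
      ext y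
      constructor
      · rintro ⟨x, hx, rfl⟩
        exact (h x).2 hx
      · intro hy
        refine ⟨e.symm y, (h _).1 (by simpa using hy), by simp⟩
    rwa [h2] at h1

theorem api0_map_comap {A D : L.Substructure W} (h : A ≤ D) :
    (A.comap D.subtype.toHom).map D.subtype.toHom = A := by
  ext x
  constructor
  · rintro ⟨y, hy, rfl⟩
    exact hy
  · intro hx
    exact ⟨⟨x, h hx⟩, hx, rfl⟩

theorem api0_iff {φ : W → W'} {A B : L.Substructure W} {A' B' : L.Substructure W'}
    (hB : IsoOn φ B B') (hA : IsoOn φ A A') (h : A ≤ B) :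
    K.Strong B' (A'.comap B'.subtype.toHom) ↔ K.Strong B (A.comap B.subtype.toHom) := by
  obtain ⟨e, he⟩ := hB.exists_equiv
  refine api0_strong_iff e _ _ fun x => ?_
  have e1 : e x ∈ A'.comap B'.subtype.toHom ↔ φ x ∈ A' := by
    rw [← he x]
    rfl
  rw [e1]
  constructor
  · intro hx
    obtain ⟨y, hy, hyx⟩ := hA.1.surjOn hx
    have e2 : y = x := hB.1.injOn (h hy) x.2 hyx
    rw [e2] at hy
    exact hy
  · intro hx
    exact hA.1.mapsTo hx

theorem IsoOn.mem {φ : W → W'} {A : L.Substructure W} {A' : L.Substructure W'}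
    (h : IsoOn φ A A') (hA : K.Mem A) : K.Mem A' := by
  obtain ⟨e, _⟩ := h.exists_equiv
  exact K.mem_iso _ _ e hA

/-- `IsoOn.exists_equiv` and `K.strong_iso` -/
theorem IsoOn.str {φ : W → W'} {A B : L.Substructure W} {A' B' : L.Substructure W'}
    (hB : IsoOn φ B B') (hA : IsoOn φ A A') (h : Str K A B) : Str K A' B' := by
  exact ⟨hA.le hB h.1, (api0_iff hB hA h.1).2 h.2⟩

theorem Str.mem_left {A B : L.Substructure W} (h : Str K A B) : K.Mem A := by
  have h1 := isoOn_embedding B.subtype (A.comap B.subtype.toHom)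
  rw [api0_map_comap h.1] at h1
  exact h1.mem (K.mem_of_strong_left _ _ h.2)

theorem Str.mem_right {A B : L.Substructure W} (h : Str K A B) : K.Mem B := by
  exact K.mem_of_strong_right _ _ h.2

theorem str_refl {A : L.Substructure W} (h : K.Mem A) : Str K A A := by
  refine ⟨le_rfl, ?_⟩
  have e : A.comap A.subtype.toHom = ⊤ := eq_top_iff.2 fun x _ => x.2
  rw [e]
  exact K.strong_refl _ h

theorem str_top_iff (A : L.Substructure W) : Str K A ⊤ ↔ K.Strong W A := by
  unfold Str
  rw [and_iff_right le_top]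
  exact (api0_strong_iff (Language.Substructure.topEquiv (L := L) (M := W)) _ _
    fun x => Iff.rfl).symm

theorem mem_top_iff : K.Mem (⊤ : L.Substructure W) ↔ K.Mem W := by
  exact ⟨K.mem_iso _ _ Language.Substructure.topEquiv,
    K.mem_iso _ _ Language.Substructure.topEquiv.symm⟩

theorem str_map_iff (f : W ↪[L] W') (A B : L.Substructure W) :
    Str K (A.map f.toHom) (B.map f.toHom) ↔ Str K A B := by
  refine ⟨fun h => ?_, fun h => (isoOn_embedding f B).str (isoOn_embedding f A) h⟩
  have hAB : A ≤ B := by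
    intro x hx
    obtain ⟨y, hy, hyx⟩ := h.1 (⟨x, hx, rfl⟩ : f.toHom x ∈ A.map f.toHom)
    have e : y = x := f.injective hyx
    rw [← e]
    exact hy
  exact ⟨hAB, (api0_iff (isoOn_embedding f B) (isoOn_embedding f A) hAB).1 h.2⟩

theorem api0_comap_iff {A B D : L.Substructure W} (hA : A ≤ D) (hB : B ≤ D) :
    Str K (A.comap D.subtype.toHom) (B.comap D.subtype.toHom) ↔ Str K A B := by
  rw [← str_map_iff D.subtype, api0_map_comap hA, api0_map_comap hB]

theorem Str.trans {A B D : L.Substructure W} (h1 : Str K A B) (h2 : Str K B D) : Str K A D := by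
  have h3 := (api0_comap_iff (K := K) (h1.1.trans h2.1) h2.1).2 h1
  exact ⟨h1.1.trans h2.1, K.strong_trans _ _ _ h3.1 h3.2 h2.2⟩

theorem Str.coh {A B D : L.Substructure W} (h1 : Str K A D) (h2 : Str K B D) (hAB : A ≤ B) :
    Str K A B := by
  have h3 : A.comap D.subtype.toHom ≤ B.comap D.subtype.toHom := fun x hx => hAB hx
  refine (api0_comap_iff (K := K) h1.1 h2.1).1 ⟨h3, ?_⟩
  exact K.coherence _ _ _ h3 h1.2 h2.2

theorem str_chain_union {ι : Type u} [LinearOrder ι] [WellFoundedLT ι] [Nonempty ι]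
    (A : ι → L.Substructure W) (h : ∀ i j, i ≤ j → Str K (A i) (A j)) :
    ∀ i, Str K (A i) (⨆ i, A i) := by
  have hA : Monotone A := fun i j hij => (h i j hij).1
  have key := K.chain_union (⨆ i, A i : L.Substructure W) ι
    (fun i => (A i).comap (⨆ i, A i).subtype.toHom)
    (fun i j hij => (api0_comap_iff (K := K) (le_iSup A i) (le_iSup A j)).2 (h i j hij))
    (fun x => (mem_iSup_mono A hA _).1 x.2)
  exact fun i => ⟨le_iSup A i, key.2 i⟩

theorem str_chain_smooth {ι : Type u} [LinearOrder ι] [WellFoundedLT ι] [Nonempty ι]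
    (A : ι → L.Substructure W) (hA : Monotone A) {N : L.Substructure W}
    (h : ∀ i, Str K (A i) N) : Str K (⨆ i, A i) N := by
  refine ⟨iSup_le fun i => (h i).1, ?_⟩
  refine K.chain_smooth N ι (fun i => (A i).comap N.subtype.toHom) _ (fun i j hij => ?_)
    (fun x => mem_iSup_mono A hA _) (fun i => (h i).2)
  exact (api0_comap_iff (K := K) (h i).1 (h j).1).2 ((h i).coh (h j) (hA hij))

theorem str_nat_smooth (A : ℕ → L.Substructure W) (hA : Monotone A) {N : L.Substructure W}
    (h : ∀ i, Str K (A i) N) : Str K (⨆ i, A i) N := by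
  have : WellFoundedLT (ULift.{u} ℕ) :=
    ⟨InvImage.wf (fun x : ULift.{u} ℕ => x.down) wellFounded_lt⟩
  have key := str_chain_smooth (K := K) (ι := ULift.{u} ℕ) (fun i => A i.down)
    (fun i j hij => hA hij) (fun i => h i.down)
  have he : (⨆ i : ULift.{u} ℕ, A i.down) = ⨆ i, A i :=
    le_antisymm (iSup_le fun i => le_iSup A i.down)
      (iSup_le fun i => le_iSup (fun j : ULift.{u} ℕ => A j.down) (ULift.up i))
  rwa [he] at key

end Vale.Agent.P307P
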