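import Vale.Agent.P307P.Defs

/-! Proof-side definitions. Maps between substructures are total functions on the ambient
structures that behave well on the substructure. -/

open Cardinal FirstOrder Set
open FirstOrder.Language.Structure

universe u

namespace Vale.Agent.P307P

variable {L : FirstOrder.Language.{u, u}}

/-- `A ≤_K B` for two substructures of an ambient structure. -/
def Str (K : AEC L) {W : Type u} [L.Structure W] (A B : L.Substructure W) : Prop :=
  A ≤ B ∧ K.Strong B (A.comap B.subtype.toHom)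

/-- `φ` is a homomorphism on `A`. -/
def HomOn {W W' : Type u} [L.Structure W] [L.Structure W'] (φ : W → W') (A : L.Substructure W) :
    Prop :=
  (∀ (n : ℕ) (f : L.Functions n) (x : Fin n → W), (∀ i, x i ∈ A) →
    φ (funMap f x) = funMap f (φ ∘ x)) ∧
  ∀ (n : ℕ) (r : L.Relations n) (x : Fin n → W), (∀ i, x i ∈ A) → RelMap r x → RelMap r (φ ∘ x)

/-- `φ` restricts to an isomorphism from `A` onto `A'`. -/
def IsoOn {W W' : Type u} [L.Structure W] [L.Structure W'] (φ : W → W') (A : L.Substructure W)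
    (A' : L.Substructure W') : Prop :=
  BijOn φ A A' ∧
  (∀ (n : ℕ) (f : L.Functions n) (x : Fin n → W), (∀ i, x i ∈ A) →
    φ (funMap f x) = funMap f (φ ∘ x)) ∧
  ∀ (n : ℕ) (r : L.Relations n) (x : Fin n → W), (∀ i, x i ∈ A) →
    (RelMap r (φ ∘ x) ↔ RelMap r x)

/-- `P` is a pushout of `B` and `M` over `A` (disjointness not included). -/
structure PrePO (K : AEC L) {W : Type u} [L.Structure W] (A B M P : L.Substructure W) : Prop where
  ab : Str K A B
  am : Str K A M
  bp : Str K B P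
  mp : Str K M P
  ex : ∀ (W' : Type u) [L.Structure W'] (D : L.Substructure W'), K.Mem D → ∀ φ ψ : W → W',
    HomOn φ B → HomOn ψ M → MapsTo φ B D → MapsTo ψ M D → EqOn φ ψ A →
    ∃ χ : W → W', HomOn χ P ∧ MapsTo χ P D ∧ EqOn φ χ B ∧ EqOn ψ χ M
  uq : ∀ (W' : Type u) [L.Structure W'] (D : L.Substructure W'), K.Mem D → ∀ χ χ' : W → W',
    HomOn χ P → HomOn χ' P → MapsTo χ P D → MapsTo χ' P D → EqOn χ χ' B → EqOn χ χ' M →
    EqOn χ χ' P

/-- a disjoint pushout -/
def IsPO (K : AEC L) {W : Type u} [L.Structure W] (A B M P : L.Substructure W) : Prop :=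
  PrePO K A B M P ∧ B ⊓ M = A

/-- `N` has the extension property for strong extensions of size at most `n`. -/
def UnivIn (K : AEC L) {W : Type u} [L.Structure W] (N : L.Substructure W) (n : Cardinal.{u}) :
    Prop :=
  ∀ (W' : Type u) [L.Structure W'] (A B : L.Substructure W') (A' : L.Substructure W)
    (φ : W' → W), Str K A B → #B ≤ n → Str K A' N → IsoOn φ A A' →
    ∃ (ψ : W' → W) (B' : L.Substructure W), IsoOn ψ B B' ∧ Str K B' N ∧ EqOn φ ψ A

/-- `c` and `c'` have the same type over `A`. -/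
def Eqv (K : AEC L) (θ : Cardinal.{u}) {W : Type u} [L.Structure W] (A : L.Substructure W)
    (c c' : W) : Prop :=
  ∃ (φ : W → W) (B B' : L.Substructure W), Str K B ⊤ ∧ Str K B' ⊤ ∧ #B ≤ θ ∧ A ≤ B ∧
    IsoOn φ B B' ∧ EqOn φ id A ∧ c ∈ B ∧ φ c = c'

/-- `c` is free from `M` over `A`. -/
def Free (K : AEC L) (θ : Cardinal.{u}) {W : Type u} [L.Structure W] (A M : L.Substructure W)
    (c : W) : Prop :=
  ∃ B P : L.Substructure W, IsPO K A B M P ∧ Str K P ⊤ ∧ #P ≤ θ ∧ c ∈ B

/-- a monster model for the size `θ` -/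
structure Mon (K : AEC L) (l θ : Cardinal.{u}) (W : Type u) [L.Structure W] : Prop where
  ls : K.LSBound l
  po : K.HasPushouts
  le : l ≤ θ
  mem : K.Mem W
  big : θ < #W
  univ : UnivIn K (⊤ : L.Substructure W) θ

/-- the standing hypotheses -/
structure Ctx (K : AEC L) (l : Cardinal.{u}) : Prop where
  ls : K.LSBound l
  po : K.HasPushouts
  unb : ∀ c : Cardinal.{u}, ∃ k, c ≤ k ∧ K.Categorical k

/-- the free models on the subsets of `X` -/
structure FreeFam (K : AEC L) (l : Cardinal.{u}) {W : Type u} [L.Structure W] {X : Type u}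
    (F : Set X → L.Substructure W) : Prop where
  str : ∀ I J, I ⊆ J → Str K (F I) (F J)
  ne : (F ∅ : Set W).Nonempty
  fin : ∀ J c, c ∈ F J → ∃ J', J' ⊆ J ∧ J'.Finite ∧ c ∈ F J'
  card_le : ∀ I, #(F I) ≤ max #I l
  card_ge : ∀ I : Set X, #I ≤ #(F I)
  po : ∀ I J, IsPO K (F (I ∩ J)) (F I) (F J) (F (I ∪ J))
  perm : ∀ σ : Equiv.Perm X, ∃ φ : W → W, IsoOn φ (F univ) (F univ) ∧
    (∀ I, MapsTo φ (F I) (F (σ '' I))) ∧ ∀ I, (∀ x ∈ I, σ x = x) → EqOn φ id (F I)

/-- `P` is the wide pushout over `A` of the `B x`, `x ∈ I`. -/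
structure IsWide (K : AEC L) {W : Type u} [L.Structure W] {X : Type u} (A : L.Substructure W)
    (B : X → L.Substructure W) (I : Set X) (P : L.Substructure W) : Prop where
  ap : Str K A P
  bp : ∀ x ∈ I, B x ≤ P
  ex : ∀ (W' : Type u) [L.Structure W'] (D : L.Substructure W'), K.Mem D →
    ∀ (ψ : W → W') (φ : X → W → W'), HomOn ψ A → MapsTo ψ A D →
    (∀ x ∈ I, HomOn (φ x) (B x) ∧ MapsTo (φ x) (B x) D ∧ EqOn ψ (φ x) A) →
    ∃ χ : W → W', HomOn χ P ∧ MapsTo χ P D ∧ EqOn ψ χ A ∧ ∀ x ∈ I, EqOn (φ x) χ (B x)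
  uq : ∀ (W' : Type u) [L.Structure W'] (D : L.Substructure W'), K.Mem D → ∀ χ χ' : W → W',
    HomOn χ P → HomOn χ' P → MapsTo χ P D → MapsTo χ' P D → EqOn χ χ' A →
    (∀ x ∈ I, EqOn χ χ' (B x)) → EqOn χ χ' P

/-- a minimal type -/
structure IsMin (K : AEC L) (θ ρ : Cardinal.{u}) {W : Type u} [L.Structure W]
    (A : L.Substructure W) (c : W) : Prop where
  str : Str K A ⊤
  card : #A = ρ
  nmem : c ∉ A
  free : ∀ M : L.Substructure W, A ≤ M → Str K M ⊤ → #M = ρ → c ∉ M → Free K θ A M c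

/-- a structure on a subset of `Ω` -/
structure PM (L : FirstOrder.Language.{u, u}) (Ω : Type u) : Type u where
  s : Set Ω
  str : L.Structure s

instance {Ω : Type u} (M : PM L Ω) : L.Structure M.s := M.str

/-- strong inclusion of structures on subsets of `Ω` -/
def PM.Le (K : AEC L) {Ω : Type u} (M N : PM L Ω) : Prop :=
  ∃ e : M.s ↪[L] N.s, (∀ x, (e x : Ω) = x) ∧ K.Strong N.s e.toHom.range

/-- the extension `f` solves all extension problems of size at most `n` over `V` -/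
def Solves (K : AEC L) (n : Cardinal.{u}) {V V' : Type u} [L.Structure V] [L.Structure V']
    (f : V ↪[L] V') : Prop :=
  ∀ (A : L.Substructure V) (B : Type u) [L.Structure B] (a : A ↪[L] B), K.Strong V A →
    K.Strong B a.toHom.range → #B ≤ n →
    ∃ g : B ↪[L] V', K.Strong V' g.toHom.range ∧ ∀ x : A, g (a x) = f x

theorem AEC.LSBound.inf {K : AEC L} {l : Cardinal.{u}} (h : K.LSBound l) : ℵ₀ ≤ l :=
  le_trans (self_le_add_left _ _) h.1

theorem Mon.inf {K : AEC L} {l θ : Cardinal.{u}} {W : Type u} [L.Structure W] (h : Mon K l θ W) :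
    ℵ₀ ≤ θ := h.ls.inf.trans h.le

theorem Mon.nonempty {K : AEC L} {l θ : Cardinal.{u}} {W : Type u} [L.Structure W]
    (h : Mon K l θ W) : Nonempty W :=
  Cardinal.mk_ne_zero_iff.1 (ne_of_gt (lt_of_le_of_lt (zero_le) h.big))

end Vale.Agent.P307P
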