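import Vale.Agent.P307P.Mon1
import Vale.Agent.P307P.Rec

/-! Building partial isomorphisms whose domain stays inside a given model. -/

open Cardinal FirstOrder Set
open FirstOrder.Language.Structure

universe u

namespace Vale.Agent.P307P

variable {L : FirstOrder.Language.{u, u}} {K : AEC L} {l θ : Cardinal.{u}}
  {W W' W'' : Type u} [L.Structure W] [L.Structure W'] [L.Structure W'']

/-- One step. `k` extends the inverse of `φ` to `E ∋ b`. Take `g` witnessing `Eqv D u (k b)`;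
`D₁` = hull in `N` of `D ∪ {u}` of size `≤ n`; extend `g` to cover `D₁`; invert `k` and extend the
inverse to cover `g (D₁)`; `ψ = (inverse of k, extended) ∘ g`, restricted to `D₁`. -/
theorem Mon.cover_step (h : Mon K l θ W) {n : Cardinal.{u}} (hn : l ≤ n) (hnθ : n ≤ θ)
    {N D D' E E' : L.Substructure W} {φ k : W → W} (hN : Str K N ⊤) (hφ : IsoOn φ D D')
    (hD : Str K D N) (hDc : #D ≤ n) (hk : IsoOn k E E') (hE : Str K E ⊤) (hE' : Str K E' ⊤)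
    (hEc : #E ≤ θ) (hDE : D' ≤ E) (hinv : ∀ x ∈ D, k (φ x) = x) {b u : W} (hb : b ∈ E)
    (hu : u ∈ N) (e : Eqv K θ D u (k b)) :
    ∃ (ψ : W → W) (D₁ D₁' : L.Substructure W), IsoOn ψ D₁ D₁' ∧ Str K D₁ N ∧ Str K D₁' ⊤ ∧
      #D₁ ≤ n ∧ D ≤ D₁ ∧ EqOn φ ψ D ∧ b ∈ D₁' := by
  have hW := h.nonempty
  have hi : ℵ₀ ≤ n := h.ls.inf.trans hn
  obtain ⟨g, B, B', hB, hB', hBc, hDB, hg, hgD, huB, hgu⟩ := e
  obtain ⟨D₁, hD₁, hs, hD₁c⟩ := exists_str_ls h.ls hn hN.mem_left (insert u D)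
    (insert_subset hu hD.le) (mk_insert_le.trans (add_le_of_le hi hDc (one_le_aleph0.trans hi)))
  have hDD : D ≤ D₁ := fun x hx => hs (mem_insert_of_mem _ hx)
  have huD : u ∈ D₁ := hs (mem_insert _ _)
  obtain ⟨g₁, C, C', hg₁, hC, hC', hCc, -, hDC, e₁⟩ :=
    h.extend hg hB hB' hBc (D₁ : Set W) (hD₁c.trans hnθ)
  obtain ⟨k', hk', i1, -⟩ := hk.exists_symm
  obtain ⟨k₁, G, G', hk₁, hG, hG', -, -, hCG, e₂⟩ :=
    h.extend hk' hE' hE (hk.card_eq.trans_le hEc) (C' : Set W) (hg₁.card_eq.trans_le hCc)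
  obtain ⟨D₂, h₂, hD₂⟩ := hg₁.restrict (A := D₁) hDC
  have h₂' : D₂ ≤ G := fun x hx => hCG (h₂ hx)
  obtain ⟨D₃, -, hD₃⟩ := hk₁.restrict (A := D₂) h₂'
  have s₂ : Str K D₂ ⊤ := (hg₁.str hD₂ ((hD₁.trans hN).coh hC hDC)).trans hC'
  have s₃ : Str K D₃ ⊤ := (hk₁.str hD₃ (s₂.coh hG h₂')).trans hG'
  have key : ∀ y ∈ E, k₁ (k y) = y := fun y hy => (e₂ (hk.1.mapsTo hy)).symm.trans (i1 y hy)
  refine ⟨k₁ ∘ g₁, D₁, D₃, hD₃.comp hD₂, hD₁, s₃, hD₁c, hDD, fun x hx => ?_, ?_⟩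
  · have a1 : g₁ x = k (φ x) := ((e₁ (hDB hx)).symm.trans (hgD hx)).trans (hinv x hx).symm
    exact ((congrArg k₁ a1).trans (key _ (hDE (hφ.1.mapsTo hx)))).symm
  · have a1 : k₁ (g₁ u) = b := (congrArg k₁ ((e₁ huB).symm.trans hgu)).trans (key b hb)
    exact a1 ▸ hD₃.1.mapsTo (hD₂.1.mapsTo huD)

theorem Mon.exists_inv_ext (h : Mon K l θ W) {D D' : L.Substructure W} {φ : W → W}
    (hφ : IsoOn φ D D') (hD : Str K D ⊤) (hD' : Str K D' ⊤) (hDc : #D ≤ θ) (b : W) :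
    ∃ (k : W → W) (E E' : L.Substructure W), IsoOn k E E' ∧ Str K E ⊤ ∧ Str K E' ⊤ ∧ #E ≤ θ ∧
      D' ≤ E ∧ b ∈ E ∧ ∀ x ∈ D, k (φ x) = x := by
  have hW := h.nonempty
  obtain ⟨ψ, hψ, i1, -⟩ := hφ.exists_symm
  obtain ⟨k, E, E', hk, hE, hE', hEc, hDE, hb, e⟩ := h.extend hψ hD' hD
    (hφ.card_eq.trans_le hDc) {b} ((mk_singleton b).trans_le (one_le_aleph0.trans h.inf))
  exact ⟨k, E, E', hk, hE, hE', hEc, hDE, hb rfl,
    fun x hx => (e (hφ.1.mapsTo hx)).symm.trans (i1 x hx)⟩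

end Vale.Agent.P307P
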