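import Mathlib

/-! Abstract elementary classes in an arbitrary finitary vocabulary. -/

open Cardinal FirstOrder

universe u

namespace Vale.Agent.P307P

/-- An abstract elementary class in the vocabulary `L` (without the Löwenheim-Skolem axiom, see
`LSBound`). `Mem M` says that the structure `M` is in the class; `Strong N A` says that the
substructure `A` of `N` satisfies `A ≤_K N`. -/
structure AEC (L : FirstOrder.Language.{u, u}) : Type (u + 1) where
  /-- the class of models -/
  Mem : ∀ (M : Type u) [L.Structure M], Prop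
  /-- the strong substructure relation -/
  Strong : ∀ (N : Type u) [L.Structure N], L.Substructure N → Prop
  /-- the order is an order on the class: the smaller structure is a model -/
  mem_of_strong_left : ∀ (N : Type u) [L.Structure N] (A : L.Substructure N), Strong N A → Mem A
  /-- the order is an order on the class: the larger structure is a model -/
  mem_of_strong_right : ∀ (N : Type u) [L.Structure N] (A : L.Substructure N), Strong N A → Mem N
  /-- the class is closed under isomorphism -/
  mem_iso : ∀ (M N : Type u) [L.Structure M] [L.Structure N], (M ≃[L] N) → Mem M → Mem N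
  /-- the order is closed under isomorphism -/
  strong_iso : ∀ (M N : Type u) [L.Structure M] [L.Structure N] (e : M ≃[L] N)
    (A : L.Substructure M), Strong M A → Strong N (A.map e.toHom)
  /-- reflexivity -/
  strong_refl : ∀ (N : Type u) [L.Structure N], Mem N → Strong N ⊤
  /-- transitivity -/
  strong_trans : ∀ (N : Type u) [L.Structure N] (A B : L.Substructure N), A ≤ B →
    Strong B (A.comap B.subtype.toHom) → Strong N B → Strong N A
  /-- coherence -/
  coherence : ∀ (N : Type u) [L.Structure N] (A B : L.Substructure N), A ≤ B →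
    Strong N A → Strong N B → Strong B (A.comap B.subtype.toHom)
  /-- the union `U` of a nonempty well-ordered increasing chain is a model above every member -/
  chain_union : ∀ (U : Type u) [L.Structure U] (ι : Type u) [LinearOrder ι] [WellFoundedLT ι]
    [Nonempty ι] (A : ι → L.Substructure U),
    (∀ i j, i ≤ j → A i ≤ A j ∧ Strong (A j) ((A i).comap (A j).subtype.toHom)) →
    (∀ x : U, ∃ i, x ∈ A i) → Mem U ∧ ∀ i, Strong U (A i)
  /-- the union `B` of such a chain is below every common upper bound `N` of the chain -/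
  chain_smooth : ∀ (N : Type u) [L.Structure N] (ι : Type u) [LinearOrder ι] [WellFoundedLT ι]
    [Nonempty ι] (A : ι → L.Substructure N) (B : L.Substructure N),
    (∀ i j, i ≤ j → A i ≤ A j ∧ Strong (A j) ((A i).comap (A j).subtype.toHom)) →
    (∀ x : N, x ∈ B ↔ ∃ i, x ∈ A i) → (∀ i, Strong N (A i)) → Strong N B

variable {L : FirstOrder.Language.{u, u}}

/-- The Löwenheim-Skolem axiom holds with the cardinal `l`; equivalently `LS(K) ≤ l`. -/
def AEC.LSBound (K : AEC L) (l : Cardinal.{u}) : Prop :=
  L.card + ℵ₀ ≤ l ∧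
    ∀ (M : Type u) [L.Structure M], K.Mem M → ∀ s : Set M,
      ∃ A : L.Substructure M, K.Strong M A ∧ s ⊆ A ∧ #A ≤ #s + l

/-- The class has a model of cardinality `k`, and any two such models are isomorphic. -/
def AEC.Categorical (K : AEC L) (k : Cardinal.{u}) : Prop :=
  (∃ (M : Type u) (_ : L.Structure M), K.Mem M ∧ #M = k) ∧
    ∀ (M N : Type u) [L.Structure M] [L.Structure N],
      K.Mem M → K.Mem N → #M = k → #N = k → Nonempty (M ≃[L] N)

/-- Every span of `K`-embeddings `f₁ : M₀ → M₁`, `f₂ : M₀ → M₂` has a disjoint amalgam by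
`K`-embeddings `g₁, g₂` that is a pushout in the category of models of `K` with all
`L`-homomorphisms as morphisms. -/
def AEC.HasPushouts (K : AEC L) : Prop :=
  ∀ (M₀ M₁ M₂ : Type u) [L.Structure M₀] [L.Structure M₁] [L.Structure M₂]
    (f₁ : M₀ ↪[L] M₁) (f₂ : M₀ ↪[L] M₂),
    K.Strong M₁ f₁.toHom.range → K.Strong M₂ f₂.toHom.range →
    ∃ (P : Type u) (_ : L.Structure P) (g₁ : M₁ ↪[L] P) (g₂ : M₂ ↪[L] P),
      K.Strong P g₁.toHom.range ∧ K.Strong P g₂.toHom.range ∧
      (∀ x, g₁ (f₁ x) = g₂ (f₂ x)) ∧ (∀ y z, g₁ y = g₂ z → ∃ x, f₁ x = y) ∧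
      ∀ (Q : Type u) [L.Structure Q], K.Mem Q → ∀ (h₁ : M₁ →[L] Q) (h₂ : M₂ →[L] Q),
        (∀ x, h₁ (f₁ x) = h₂ (f₂ x)) →
        ∃! h : P →[L] Q, (∀ y, h (g₁ y) = h₁ y) ∧ ∀ z, h (g₂ z) = h₂ z

end Vale.Agent.P307P
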