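import Vale.Agent.P307P.Api

/-! Directed unions (Iwamura). Induction on `#𝒟`. Finite: a directed finite family has a largest
member. Infinite: fix an upper bound function `ub : pairs → 𝒟`; enumerate `𝒟` by `(#𝒟).ord.ToType`;
if `𝒟` is countable build a cofinal `ω`-chain, otherwise let `𝒟 i` be the closure under `ub` of the
initial segment `Iic i` (size `≤ max #(Iic i) ℵ₀ < #𝒟`, directed, monotone in `i`).
For `dir_union` prove by the same induction; `Str K (sSup (𝒟 i)) (sSup (𝒟 j))` comes from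
`dir_smooth` and the induction hypothesis. -/

open Cardinal FirstOrder Set
open FirstOrder.Language.Structure

universe u

namespace Vale.Agent.P307P

variable {L : FirstOrder.Language.{u, u}} {K : AEC L} {l θ : Cardinal.{u}}
  {W W' W'' : Type u} [L.Structure W] [L.Structure W'] [L.Structure W'']

theorem mem_sSup_dir {𝒟 : Set (L.Substructure W)} (hne : 𝒟.Nonempty)
    (hd : DirectedOn (· ≤ ·) 𝒟) (x : W) : x ∈ sSup 𝒟 ↔ ∃ A ∈ 𝒟, x ∈ A :=
  FirstOrder.Language.Substructure.mem_sSup_of_directedOn hne hd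

/-- closing a set under a binary operation, in stages -/
def dir0_st {β : Type u} (f : β → β → β) (s : Set β) : ℕ → Set β
  | 0 => s
  | n + 1 => dir0_st f s n ∪ image2 f (dir0_st f s n) (dir0_st f s n)

theorem dir0_mono {β : Type u} (f : β → β → β) {s t : Set β} (h : s ⊆ t) (n : ℕ) :
    dir0_st f s n ⊆ dir0_st f t n := by
  induction n with
  | zero => exact h
  | succ n ih => exact union_subset_union ih (image2_subset ih ih)

theorem dir0_card {β : Type u} (f : β → β → β) {s : Set β} {c : Cardinal.{u}} (hc : ℵ₀ ≤ c)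
    (h : #s ≤ c) : #(⋃ n : ULift.{u} ℕ, dir0_st f s n.down) ≤ c := by
  have h1 : ∀ n, #(dir0_st f s n) ≤ c := fun n => by
    induction n with
    | zero => exact h
    | succ n ih =>
      exact (mk_union_le _ _).trans (add_le_of_le hc ih
        (mk_image2_le.trans (mul_le_of_le hc ih ih)))
  refine (mk_iUnion_le _).trans (mul_le_of_le hc (by simpa using hc) (ciSup_le' fun n => h1 _))

/-- the combinatorial core, for any partial order: an uncountable directed set is the union of a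
chain of smaller directed subsets -/
theorem dir_cover {α : Type u} [PartialOrder α] (𝒟 : Set α) (hd : DirectedOn (· ≤ ·) 𝒟)
    (hc : ℵ₀ < #𝒟) :
    ∃ E : (#𝒟).ord.ToType → Set α, Monotone E ∧ (⋃ i, E i = 𝒟) ∧
      ∀ i, (E i).Nonempty ∧ DirectedOn (· ≤ ·) (E i) ∧ #(E i) < #𝒟 := by
  have h0 : ∀ a b : 𝒟, ∃ c : 𝒟, a.1 ≤ c.1 ∧ b.1 ≤ c.1 := fun a b =>
    let ⟨c, hc, h⟩ := hd a.1 a.2 b.1 b.2
    ⟨⟨c, hc⟩, h⟩
  choose f hf using h0
  obtain ⟨e⟩ : Nonempty ((#𝒟).ord.ToType ≃ 𝒟) := Cardinal.eq.1 (mk_ord_toType _)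
  refine ⟨fun i => Subtype.val '' ⋃ n : ULift.{u} ℕ, dir0_st f (e '' Iic i) n.down,
    fun i j h => image_mono (iUnion_mono fun n => dir0_mono f (image_mono (Iic_subset_Iic.2 h)) _),
    ?_, fun i => ⟨⟨_, e i, mem_iUnion.2 ⟨⟨0⟩, i, self_mem_Iic, rfl⟩, rfl⟩, ?_, ?_⟩⟩
  · refine Subset.antisymm (iUnion_subset fun i => ?_) fun x hx => mem_iUnion.2
      ⟨e.symm ⟨x, hx⟩, ⟨x, hx⟩, mem_iUnion.2 ⟨⟨0⟩, _, self_mem_Iic, e.apply_symm_apply _⟩, rfl⟩
    rintro _ ⟨x, -, rfl⟩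
    exact x.2
  · rintro _ ⟨a, ha, rfl⟩ _ ⟨b, hb, rfl⟩
    obtain ⟨⟨m⟩, hm⟩ := mem_iUnion.1 ha
    obtain ⟨⟨n⟩, hn⟩ := mem_iUnion.1 hb
    have h1 : Monotone (dir0_st f (e '' Iic i)) :=
      monotone_nat_of_le_succ fun _ => subset_union_left
    exact ⟨_, ⟨f a b, mem_iUnion.2 ⟨⟨max m n + 1⟩, Or.inr (mem_image2_of_mem
      (h1 (le_max_left m n) hm) (h1 (le_max_right m n) hn))⟩, rfl⟩, hf a b⟩
  · refine (mk_image_le.trans (dir0_card f (c := max ℵ₀ #(Iio i)) (le_max_left _ _)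
      (mk_image_le.trans ?_))).trans_lt (max_lt hc (mk_Iio_toType_ord_lt i))
    rw [← Iio_insert]
    exact mk_insert_le.trans (add_le_of_le (le_max_left _ _) (le_max_right _ _)
      (one_le_aleph0.trans (le_max_left _ _)))

/-- a countable directed set has a cofinal monotone sequence -/
theorem dir_seq {α : Type u} [PartialOrder α] (𝒟 : Set α) (hne : 𝒟.Nonempty)
    (hd : DirectedOn (· ≤ ·) 𝒟) (hc : #𝒟 ≤ ℵ₀) :
    ∃ a : ℕ → α, Monotone a ∧ (∀ i, a i ∈ 𝒟) ∧ ∀ x ∈ 𝒟, ∃ i, x ≤ a i := by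
  have h0 : ∀ a b : 𝒟, ∃ c : 𝒟, a.1 ≤ c.1 ∧ b.1 ≤ c.1 := fun a b =>
    let ⟨c, hc, h⟩ := hd a.1 a.2 b.1 b.2
    ⟨⟨c, hc⟩, h⟩
  choose f hf using h0
  have : Countable 𝒟 := mk_le_aleph0_iff.1 hc
  have := hne.to_subtype
  obtain ⟨e, he⟩ := exists_surjective_nat 𝒟
  let a : ℕ → 𝒟 := fun n => Nat.rec (e 0) (fun n x => f x (e n)) n
  refine ⟨fun n => (a n).1, monotone_nat_of_le_succ fun n => (hf (a n) (e n)).1, fun n => (a n).2,
    fun x hx => ?_⟩
  obtain ⟨n, hn⟩ := he ⟨x, hx⟩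
  exact ⟨n + 1, (congrArg Subtype.val hn).ge.trans (hf (a n) (e n)).2⟩

end Vale.Agent.P307P
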