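import Vale.Agent.P307P.Fre0

/-! Freeness of elements inside a monster model. -/

open Cardinal FirstOrder Set
open FirstOrder.Language.Structure

universe u

namespace Vale.Agent.P307P

variable {L : FirstOrder.Language.{u, u}} {K : AEC L} {l θ : Cardinal.{u}}
  {W W' W'' : Type u} [L.Structure W] [L.Structure W'] [L.Structure W'']

theorem fre_card {A B : L.Substructure W} (h : A ≤ B) : #A ≤ #B :=
  mk_le_mk_of_subset (s := (A : Set W)) (t := (B : Set W)) h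

theorem fre_fix {φ : W → W} {A B : L.Substructure W} (h : EqOn φ id B) (hAB : A ≤ B) :
    IsoOn φ A A :=
  (isoOn_id A).congr fun _ hx => (h (hAB hx)).symm

/-- Witnesses `IsPO A B' M' P'`, `IsPO M' B M P` with `c ∈ B'`, `c ∈ B`. Hull `D ⊇ B ∪ P'`;
`po_enlarge` gives `φ` fixing `B` (so `M'`, `A`, `c`) and `IsPO M' D' M R`; let `B'', P''` be the
images of `B', P'` (`IsPO.iso`: `IsPO A B'' M' P''`); split `IsPO M' M D' R` at `P''`; paste. -/
theorem Mon.free_trans (h : Mon K l θ W) {A M' M : L.Substructure W} {c : W}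
    (hne : (A : Set W).Nonempty) (f1 : Free K θ A M' c) (f2 : Free K θ M' M c) :
    Free K θ A M c := by
  have := h.nonempty
  obtain ⟨B', P', h1, s1, c1, m1⟩ := f1
  obtain ⟨B, P, h2, s2, c2, m2⟩ := f2
  have hne' : (M' : Set W).Nonempty := hne.mono h1.1.am.le
  obtain ⟨D, hD, hsub, hDc⟩ := h.hull h.le ((B : Set W) ∪ P')
    ((mk_union_le _ _).trans (add_le_of_le h.inf ((fre_card h2.1.bp.le).trans c2) c1))
  have hBD : Str K B D := (h2.1.bp.trans s2).coh hD fun _ hx => hsub (Or.inl hx)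
  have hPD : Str K P' D := s1.coh hD fun _ hx => hsub (Or.inr hx)
  obtain ⟨φ, D', R, hφ, he, h3, s3, c3⟩ := h.po_enlarge hne' h2 s2 c2 hBD hDc
  obtain ⟨P'', -, hP''⟩ := hφ.restrict hPD.le
  obtain ⟨B'', -, hB''⟩ := hP''.restrict h1.1.bp.le
  have h4 : IsPO K A B'' M' P'' :=
    h1.iso (fre_fix he (h1.1.am.le.trans h2.1.ab.le)) hB'' (fre_fix he h2.1.ab.le) hP''
  obtain ⟨Q, h5, h6⟩ := h3.symm.split h.po hne' h4.1.mp (hφ.str hP'' hPD)
  refine ⟨B'', Q, h4.paste h5.symm, h6.1.bp.trans s3, (fre_card h6.1.bp.le).trans c3, ?_⟩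
  have := hB''.1.mapsTo m1
  rwa [he m2] at this

/-- Witnesses `(B, P)`, `(B', P')`, `φ`. `extend2` gives `ψ : D ≃ D'` with `B ≤ D`, `B' ≤ D'`;
`po_enlarge` twice: `g : D ≃ D₁` fixing `B`, `g' : D' ≃ D₁'` fixing `B'`; `g' ∘ ψ ∘ g⁻¹` and `id`
on `M` extend to `R ≃ R'` by `PrePO.unique`. -/
theorem Mon.free_unique (h : Mon K l θ W) {A M : L.Substructure W} {c c' : W}
    (hne : (A : Set W).Nonempty) (f1 : Free K θ A M c) (f2 : Free K θ A M c')
    (e : Eqv K θ A c c') : Eqv K θ M c c' := by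
  have := h.nonempty
  obtain ⟨B, P, h1, s1, c1, m1⟩ := f1
  obtain ⟨B', P', h2, s2, c2, m2⟩ := f2
  obtain ⟨φ, E, E', hE, hE', hEc, hAE, hφ, hφA, hc, hcc⟩ := e
  obtain ⟨ψ, D, D', hψ, hD, hD', hDc, hED, hBD, hBD', he⟩ := h.extend2 hφ hE hE' hEc B B'
    ((fre_card h1.1.bp.le).trans c1) ((fre_card h2.1.bp.le).trans c2)
  obtain ⟨g, D₁, R, hg, eg, h3, s3, c3⟩ :=
    h.po_enlarge hne h1 s1 c1 ((h1.1.bp.trans s1).coh hD hBD) hDc
  obtain ⟨g', D₁', R', hg', eg', h4, s4, -⟩ :=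
    h.po_enlarge hne h2 s2 c2 ((h2.1.bp.trans s2).coh hD' hBD') (hψ.card_eq.trans_le hDc)
  obtain ⟨gi, hgi, i1, -⟩ := hg.exists_symm
  have hi : ∀ x ∈ B, gi x = x := fun x hx => by
    have := i1 x (hBD hx)
    rwa [eg hx] at this
  have hA : EqOn (g' ∘ ψ ∘ gi) id A := fun x hx => by
    show g' (ψ (gi x)) = x
    rw [hi x (h1.1.ab.le hx), ← he (hAE hx), hφA hx]
    exact eg' (h2.1.ab.le hx)
  obtain ⟨χ, hχ, e1, e2⟩ := h3.1.unique h4.1 (fre_fix hA le_rfl) (hg'.comp (hψ.comp hgi))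
    (isoOn_id M) hA
  have hc1 : c ∈ D₁ := by
    have := hg.1.mapsTo (hBD m1)
    rwa [eg m1] at this
  refine ⟨χ, R, R', s3, s4, c3, h3.1.mp.le, hχ, e2.symm, h3.1.bp.le hc1, ?_⟩
  rw [← e1 hc1]
  show g' (ψ (gi c)) = c'
  rw [hi c m1, ← he hc, hcc]
  exact eg' m2

end Vale.Agent.P307P
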