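import Vale.Agent.P307P.Mon1

/-! Freeness of elements inside a monster model. -/

open Cardinal FirstOrder Set
open FirstOrder.Language.Structure

universe u

namespace Vale.Agent.P307P

variable {L : FirstOrder.Language.{u, u}} {K : AEC L} {l θ : Cardinal.{u}}
  {W W' W'' : Type u} [L.Structure W] [L.Structure W'] [L.Structure W'']

theorem Free.not_mem {A M : L.Substructure W} {c : W} (f : Free K θ A M c) (hc : c ∉ A) :
    c ∉ M := by
  obtain ⟨B, P, hP, -, -, hB⟩ := f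
  intro hM
  have h : c ∈ B ⊓ M := ⟨hB, hM⟩
  rw [hP.2] at h
  exact hc h

/-- `Mon.extend` to cover the witness `P`, `IsoOn.restrict`, `IsPO.iso` -/
theorem Mon.free_iso (h : Mon K l θ W) {φ : W → W} {D D' A A' M M' : L.Substructure W} {c : W}
    (hφ : IsoOn φ D D') (hD : Str K D ⊤) (hD' : Str K D' ⊤) (hDc : #D ≤ θ) (hMD : M ≤ D)
    (hc : c ∈ D) (hA : IsoOn φ A A') (hM : IsoOn φ M M') (f : Free K θ A M c) :
    Free K θ A' M' (φ c) := by
  obtain ⟨B, P, hP, hP', hPc, hcB⟩ := f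
  have := h.nonempty
  obtain ⟨ψ, E, E', hψ, hE, hE', -, -, hPE, he⟩ := h.extend hφ hD hD' hDc P hPc
  have hPE' : P ≤ E := hPE
  obtain ⟨P', -, hψP⟩ := hψ.restrict hPE'
  obtain ⟨B', -, hψB⟩ := hψ.restrict (hP.1.bp.le.trans hPE')
  refine ⟨B', P', hP.iso (hA.congr (he.mono (hP.1.am.le.trans hMD))) hψB (hM.congr (he.mono hMD))
    hψP, (hψ.str hψP (hP'.coh hE hPE')).trans hE', hψP.card_eq.trans_le hPc, ?_⟩
  rw [he hc]
  exact hψB.1.mapsTo hcB

/-- hull of `A ∪ {c}`, `po_exists` -/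
theorem Mon.exists_free (h : Mon K l θ W) {A M : L.Substructure W} (hne : (A : Set W).Nonempty)
    (hAM : Str K A M) (hM : Str K M ⊤) (hMc : #M ≤ θ) (c : W) :
    ∃ c', Eqv K θ A c c' ∧ Free K θ A M c' := by
  obtain ⟨B, hB, hs, hBc⟩ := h.hull h.le ((A : Set W) ∪ {c})
    (card_union_le h.inf ((card_mono hAM.le).trans hMc)
      ((Cardinal.mk_singleton c).trans_le (Cardinal.one_le_aleph0.trans h.inf)))
  have hAB : A ≤ B := fun x hx => hs (Or.inl hx)
  have hcB : c ∈ B := hs (Or.inr rfl)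
  obtain ⟨φ, B', P, hφ, he, hP, hP', hPc⟩ :=
    h.po_exists hne ((hAM.trans hM).coh hB hAB) hAM hM hBc hMc
  exact ⟨φ c, ⟨φ, B, B', hB, hP.1.bp.trans hP', hBc, hAB, hφ, he, hcB, rfl⟩,
    B', P, hP, hP', hPc, hφ.1.mapsTo hcB⟩

/-- split twice -/
theorem free_of_po (hpo : K.HasPushouts) {A B V P M' M'' : L.Substructure W} {c : W}
    (hne : (A : Set W).Nonempty) (hP : IsPO K A B V P) (hP' : Str K P ⊤) (hPc : #P ≤ θ)
    (hc : c ∈ B) (h1 : Str K A M') (h2 : Str K M' M'') (h3 : Str K M'' V) :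
    Free K θ M' M'' c := by
  obtain ⟨P', k1, k2⟩ := hP.split hpo hne h1 (h2.trans h3)
  obtain ⟨P'', k3, k4⟩ := k2.split hpo (hne.mono h1.le) h2 h3
  exact ⟨P', P'', k3, k4.1.bp.trans hP', (card_mono k4.1.bp.le).trans hPc, k1.1.bp.le hc⟩

end Vale.Agent.P307P
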