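import Vale.Agent.P307P.Lc0

/-! Local character. `lc_std`: `exists_omega_chain` in `N` with `g B = N ∩ F (supp B)`, where
`supp B = ⋃ x ∈ B, S x` for chosen finite supports `S x` (from `fin`), monotone in `B`;
`B = ⨆ B i = N ⊓ F J` with `J` the union of the support sets (use `fin`: a finite subset of `J` lies
in one support set; make the support sets increase by taking finite unions or unions over
`j ≤ i`); `A = F (I ∩ J) = F I ⊓ F J`; `hF.po J I` (after `inter_comm`, `union_comm`), `symm`,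
split at `B` (`Str.coh`), `PrePO.le` gives `P ≤ N`.
`Ctx.lc`: `k > #N` with `Categorical k`, free family on `k.out`, `I` of size `#M`,
`exists_isoOn_of_cat`, `Ctx.univ` for `F univ` extends the isomorphism to `N`; apply `lc_std` to
the image and pull back with the inverse map (`IsoOn.restrict`, `IsPO.iso`, `IsoOn.str`). -/

open Cardinal FirstOrder Set
open FirstOrder.Language.Structure

universe u

namespace Vale.Agent.P307P

variable {L : FirstOrder.Language.{u, u}} {K : AEC L} {l θ : Cardinal.{u}}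
  {W W' W'' : Type u} [L.Structure W] [L.Structure W'] [L.Structure W'']

theorem Ctx.lc (h : Ctx K l) {M N : L.Substructure W} (hMN : Str K M N)
    (hM : K.Categorical #M) (hl : l ≤ #M) {ρ : Cardinal.{u}} (hρ : l ≤ ρ) (s : Set W)
    (hs : s ⊆ N) (hc : #s ≤ ρ) :
    ∃ A B P : L.Substructure W, IsPO K A B M P ∧ Str K P N ∧ s ⊆ B ∧ #B ≤ ρ ∧
      (A : Set W).Nonempty := by
  obtain ⟨k, hk1, hk⟩ := h.unb (Order.succ #N)
  have hNk : #N < k := Order.succ_le_iff.1 hk1
  have hMN' : #M ≤ #N := card_mono hMN.le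
  have hlN : l ≤ #N := hl.trans hMN'
  obtain ⟨W₁, _, F, hF⟩ := h.exists_freeFam k.out
  have hX : #k.out = k := Cardinal.mk_out k
  obtain ⟨I, hI⟩ : ∃ I : Set k.out, #I = #M :=
    Cardinal.le_mk_iff_exists_set.1 (by rw [hX]; exact hMN'.trans hNk.le)
  have hFI : #(F I) = #M := by
    refine le_antisymm ((hF.card_le I).trans ?_) (hI ▸ hF.card_ge I)
    exact max_le hI.le hl
  have hU : #(F Set.univ) = k := by
    have e : #(Set.univ : Set k.out) = k := by rw [Cardinal.mk_univ, hX]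
    refine le_antisymm ((hF.card_le Set.univ).trans ?_) (e.ge.trans (hF.card_ge Set.univ))
    exact max_le e.le (hlN.trans hNk.le)
  have hne₁ : Nonempty W₁ := ⟨hF.ne.some⟩
  have hne : Nonempty W := by
    have h0 : #M ≠ 0 := ne_of_gt (lt_of_lt_of_le Cardinal.aleph0_pos (h.ls.inf.trans hl))
    obtain ⟨x⟩ := Cardinal.mk_ne_zero_iff.1 h0
    exact ⟨x.1⟩
  have hIU : Str K (F I) (F Set.univ) := hF.str _ _ (subset_univ _)
  obtain ⟨φ, hφ⟩ := exists_isoOn_of_cat hM hMN.mem_left hIU.mem_left rfl hFI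
  obtain ⟨ψ, N', hψ, hN', he⟩ := h.univ hlN hNk hk hIU.mem_right hU W M N (F I) φ hMN le_rfl hIU hφ
  have hψM : IsoOn ψ M (F I) := hφ.congr he
  have hIN : F I ≤ N' := hψM.le hψ hMN.le
  obtain ⟨A', B', P', hpo, hP', hsB, hcB, hA'⟩ := lc_std h.ls h.po hF I hN' hIN hρ (ψ '' s)
    (by rintro _ ⟨x, hx, rfl⟩; exact hψ.1.mapsTo (hs hx)) (Cardinal.mk_image_le.trans hc)
  obtain ⟨χ, hχ, i1, -⟩ := hψ.exists_symm
  have hBN : B' ≤ N' := hpo.1.bp.le.trans hP'.le
  obtain ⟨P, -, hP⟩ := hχ.restrict hP'.le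
  obtain ⟨B, -, hB⟩ := hχ.restrict hBN
  obtain ⟨A, -, hA⟩ := hχ.restrict (hpo.1.ab.le.trans hBN)
  obtain ⟨M₀, -, hM₀⟩ := hχ.restrict hIN
  have e : M₀ = M := by
    have h1 : IsoOn (id : W → W) M M₀ :=
      (hM₀.comp hψM).congr fun x hx => i1 x (hMN.le hx)
    exact h1.unique (isoOn_id M)
  subst e
  refine ⟨A, B, P, hpo.iso hA hB hM₀ hP, hχ.str hP hP', fun x hx => ?_, hB.card_eq.trans_le hcB,
    ?_⟩
  · have := hB.1.mapsTo (hsB ⟨x, hx, rfl⟩)
    rwa [i1 x (hs hx)] at this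
  · obtain ⟨y, hy⟩ := hA'
    exact ⟨χ y, hA.1.mapsTo hy⟩

end Vale.Agent.P307P
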