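import Vale.Agent.P307P.Sat

/-! Local character. `lc_std`: `exists_omega_chain` in `N` with `g B = N ∩ F (supp B)`, where
`supp B = ⋃ x ∈ B, S x` for chosen finite supports `S x` (from `fin`), monotone in `B`;
`B = ⨆ B i = N ⊓ F J` with `J` the union of the support sets (use `fin`: a finite subset of `J` lies
in one support set; make the support sets increase by taking finite unions or unions over
`j ≤ i`); `A = F (I ∩ J) = F I ⊓ F J`; `hF.po J I` (after `inter_comm`, `union_comm`), `symm`,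
split at `B` (`Str.coh`), `PrePO.le` gives `P ≤ N`.
`Ctx.lc`: `k > #N` with `Categorical k`, free family on `k.out`, `I` of size `#M`,
`exists_isoOn_of_cat`, `Ctx.univ` for `F univ` extends the isomorphism to `N`; apply `lc_std` to
the image and pull back with the inverse map (`IsoOn.restrict`, `IsPO.iso`, `IsoOn.str`). -/

open Cardinal FirstOrder Set
open FirstOrder.Language.Structure

universe u

namespace Vale.Agent.P307P

variable {L : FirstOrder.Language.{u, u}} {K : AEC L} {l θ : Cardinal.{u}}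
  {W W' W'' : Type u} [L.Structure W] [L.Structure W'] [L.Structure W'']

theorem lc_std (hl : K.LSBound l) (hpo : K.HasPushouts) {X : Type u}
    {F : Set X → L.Substructure W} (hF : FreeFam K l F) (I : Set X) {N : L.Substructure W}
    (hN : Str K N (F univ)) (hIN : F I ≤ N) {ρ : Cardinal.{u}} (hρ : l ≤ ρ) (s : Set W)
    (hs : s ⊆ N) (hc : #s ≤ ρ) :
    ∃ A B P : L.Substructure W, IsPO K A B (F I) P ∧ Str K P N ∧ s ⊆ B ∧ #B ≤ ρ ∧
      (A : Set W).Nonempty := by
  have hi : ℵ₀ ≤ ρ := hl.inf.trans hρ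
  have hS : ∀ c : W, ∃ J : Set X, J.Finite ∧ (c ∈ F univ → c ∈ F J) := fun c => by
    by_cases h : c ∈ F univ
    · obtain ⟨J, -, h1, h2⟩ := hF.fin univ c h
      exact ⟨J, h1, fun _ => h2⟩
    · exact ⟨∅, finite_empty, fun h' => absurd h' h⟩
  choose S hS1 hS2 using hS
  obtain ⟨T, hT⟩ : ∃ T : L.Substructure W → Set X, ∀ B j, j ∈ T B ↔ ∃ x ∈ B, j ∈ S x :=
    ⟨fun B => ⋃ x ∈ (B : Set W), S x, fun B j => by simp⟩
  have hTc : ∀ B : L.Substructure W, #B ≤ ρ → #(T B) ≤ ρ := fun B hB => by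
    have e : T B = ⋃ x ∈ (B : Set W), S x := Set.ext fun j => by simp [hT]
    rw [e]
    refine (mk_biUnion_le S _).trans ((mul_le_mul' hB (ciSup_le' fun x => ?_)).trans_eq
      (mul_eq_self hi))
    exact (hS1 x).lt_aleph0.le.trans hi
  obtain ⟨A, hA, hs0, hAi⟩ := exists_omega_chain hl hρ hN.mem_left
    (fun B => (N : Set W) ∩ F (T B)) (fun B _ hB => ⟨inter_subset_left,
      (card_le_of_subset inter_subset_right).trans
        ((hF.card_le _).trans (max_le (hTc B hB) hρ))⟩) s hs hc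
  have hBN : Str K (⨆ i, A i) N := str_nat_smooth A hA fun i => (hAi i).1
  have hBc : #(⨆ i, A i : L.Substructure W) ≤ ρ := card_iSup_nat_le A hA hi fun i => (hAi i).2.1
  have hm := mem_iSup_nat A hA
  generalize (⨆ i, A i) = B at hBN hBc hm
  have hBU : Str K B (F univ) := hBN.trans hN
  have hU : ∀ J, Str K (F J) (F univ) := fun J => hF.str J univ (subset_univ J)
  have h1 : B ≤ F (T B) := fun x hx =>
    (hF.str (S x) (T B) fun j hj => (hT B j).2 ⟨x, hx, hj⟩).le (hS2 x (hBU.le hx))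
  have h2 : ∀ x ∈ N, x ∈ F (T B) → x ∈ B := fun x hx hx' => by
    obtain ⟨J, j1, j2, j3⟩ := hF.fin _ x hx'
    have hd : Monotone fun i => T (A i) := fun i k h j hj => by
      obtain ⟨y, hy, hj'⟩ := (hT _ j).1 hj
      exact (hT _ j).2 ⟨y, hA h hy, hj'⟩
    obtain ⟨i, hi'⟩ := hd.directed_le.exists_mem_subset_of_finset_subset_biUnion
      (s := j2.toFinset) fun j hj => by
        obtain ⟨y, hy, hj'⟩ := (hT _ j).1 (j1 (j2.mem_toFinset.1 hj))
        obtain ⟨i, hy'⟩ := (hm y).1 hy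
        exact mem_iUnion.2 ⟨i, (hT _ j).2 ⟨y, hy', hj'⟩⟩
    rw [j2.coe_toFinset] at hi'
    exact (hm x).2 ⟨i + 1, (hAi i).2.2 ⟨hx, (hF.str _ _ hi').le j3⟩⟩
  have hne : (F (I ∩ T B) : Set W).Nonempty := hF.ne.mono (hF.str ∅ _ (empty_subset _)).le
  have h3 : F (I ∩ T B) ≤ B := fun x hx =>
    h2 x (hIN ((hF.str _ _ inter_subset_left).le hx)) ((hF.str _ _ inter_subset_right).le hx)
  obtain ⟨P, p1, p2⟩ := (hF.po I (T B)).split hpo hne ((hU _).coh hBU h3) (hBU.coh (hU _) h1)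
  have hPU : Str K P (F univ) := p2.1.bp.trans (hU _)
  exact ⟨_, B, P, p1.symm, hPU.coh hN (p1.1.le hN.mem_right hN.mem_left hPU.le hN.le hIN hBN.le),
    fun x hx => (hm x).2 ⟨0, hs0 hx⟩, hBc, hne⟩

end Vale.Agent.P307P
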