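import Vale.Agent.P307P.Map0

/-! Elementary lemmas on `HomOn` and `IsoOn`. -/

open Cardinal FirstOrder Set
open FirstOrder.Language.Structure

universe u

namespace Vale.Agent.P307P

variable {L : FirstOrder.Language.{u, u}} {K : AEC L} {l θ : Cardinal.{u}}
  {W W' W'' : Type u} [L.Structure W] [L.Structure W'] [L.Structure W'']

theorem map_fun {A : L.Substructure W} {n : ℕ} (f : L.Functions n) (x : Fin n → A) :
    ((funMap f x : A) : W) = funMap f fun i => (x i : W) := rfl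

theorem map_rel {A : L.Substructure W} {n : ℕ} (r : L.Relations n) (x : Fin n → A) :
    RelMap r x ↔ RelMap r fun i => (x i : W) := Iff.rfl

theorem map_iso {φ : W → W'} {A : L.Substructure W} (f : A ↪[L] W') (h : ∀ x : A, φ x = f x) :
    IsoOn φ A f.toHom.range := by
  refine ⟨⟨fun x hx => ⟨⟨x, hx⟩, (h ⟨x, hx⟩).symm⟩, fun x hx y hy e => ?_, ?_⟩,
    fun n g x hx => ?_, fun n r x hx => ?_⟩
  · exact congrArg Subtype.val
      (f.injective (((h ⟨x, hx⟩).symm.trans e).trans (h ⟨y, hy⟩)) : (⟨x, hx⟩ : A) = ⟨y, hy⟩)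
  · rintro _ ⟨x, rfl⟩
    exact ⟨x, x.2, h x⟩
  · have e : φ ∘ x = f ∘ fun i => (⟨x i, hx i⟩ : A) := funext fun i => h ⟨x i, hx i⟩
    rw [e, ← f.map_fun]
    exact h (funMap g fun i => ⟨x i, hx i⟩)
  · have e : φ ∘ x = f ∘ fun i => (⟨x i, hx i⟩ : A) := funext fun i => h ⟨x i, hx i⟩
    rw [e, f.map_rel]
    rfl

theorem map_ext [Nonempty W'] {A : L.Substructure W} (f : A → W') :
    ∃ φ : W → W', ∀ x : A, φ x = f x :=
  ⟨Function.extend Subtype.val f fun _ => Classical.arbitrary W',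
    fun x => Subtype.val_injective.extend_apply _ _ x⟩

theorem map_glue {ι : Type u} [LinearOrder ι] [Nonempty ι] (φ : ι → W → W')
    (A : ι → L.Substructure W) (he : ∀ i j, i ≤ j → EqOn (φ i) (φ j) (A i)) :
    ∃ ψ : W → W', ∀ i, EqOn (φ i) ψ (A i) := by
  classical
  refine ⟨fun x => if h : ∃ i, x ∈ A i then φ h.choose x else φ (Classical.arbitrary ι) x,
    fun i x hx => ?_⟩
  have h : ∃ i, x ∈ A i := ⟨i, hx⟩
  simp only [dif_pos h]
  exact (he _ _ (le_max_left i h.choose) hx).trans (he _ _ (le_max_right _ _) h.choose_spec).symm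

theorem map_fin {ι : Type u} [LinearOrder ι] [Nonempty ι] {A : ι → L.Substructure W}
    (hA : Monotone A) {n : ℕ} {x : Fin n → W} (hx : ∀ k, x k ∈ ⨆ i, A i) :
    ∃ i, ∀ k, x k ∈ A i := by
  choose j hj using fun k =>
    (FirstOrder.Language.Substructure.mem_iSup_of_directed hA.directed_le).1 (hx k)
  obtain ⟨i, hi⟩ := (Set.finite_range j).bddAbove
  exact ⟨i, fun k => hA (hi ⟨k, rfl⟩) (hj k)⟩

theorem IsoOn.exists_equiv {φ : W → W'} {A : L.Substructure W} {A' : L.Substructure W'}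
    (h : IsoOn φ A A') : ∃ e : A ≃[L] A', ∀ x : A, (e x : W') = φ x := by
  exact ⟨⟨h.1.equiv φ, fun f x => Subtype.ext (h.2.1 _ f _ fun i => (x i).2),
    fun r x => h.2.2 _ r _ fun i => (x i).2⟩, fun _ => rfl⟩

theorem exists_isoOn_of_equiv [Nonempty W'] {A : L.Substructure W} {A' : L.Substructure W'}
    (e : A ≃[L] A') : ∃ φ : W → W', IsoOn φ A A' ∧ ∀ x : A, φ x = e x := by
  obtain ⟨φ, h⟩ := map_ext fun x : A => (e x : W')
  have h1 := map_iso (A'.subtype.comp e.toEmbedding) h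
  have h2 : (A'.subtype.comp e.toEmbedding).toHom.range = A' := by
    ext y
    constructor
    · rintro ⟨x, rfl⟩
      exact (e x).2
    · intro hy
      exact ⟨e.symm ⟨y, hy⟩, congrArg Subtype.val (e.apply_symm_apply ⟨y, hy⟩)⟩
  exact ⟨φ, h2 ▸ h1, h⟩

theorem HomOn.exists_hom {φ : W → W'} {A : L.Substructure W} {D : L.Substructure W'}
    (h : HomOn φ A) (hm : MapsTo φ A D) : ∃ g : A →[L] D, ∀ x : A, (g x : W') = φ x := by
  exact ⟨⟨fun x => ⟨φ x, hm x.2⟩, fun f x => Subtype.ext (h.1 _ f _ fun i => (x i).2),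
    fun r x hx => h.2 _ r _ (fun i => (x i).2) hx⟩, fun _ => rfl⟩

theorem homOn_of_hom {φ : W → W'} {A : L.Substructure W} (g : A →[L] W')
    (h : ∀ x : A, φ x = g x) : HomOn φ A := by
  refine ⟨fun n f x hx => ?_, fun n r x hx hr => ?_⟩
  · have e : φ ∘ x = g ∘ fun i => (⟨x i, hx i⟩ : A) := funext fun i => h ⟨x i, hx i⟩
    rw [e, ← g.map_fun]
    exact h (funMap f fun i => ⟨x i, hx i⟩)
  · have e : φ ∘ x = g ∘ fun i => (⟨x i, hx i⟩ : A) := funext fun i => h ⟨x i, hx i⟩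
    rw [e]
    exact g.map_rel r _ hr

theorem isoOn_embedding (f : W ↪[L] W') (A : L.Substructure W) : IsoOn f A (A.map f.toHom) := by
  exact ⟨⟨fun x hx => ⟨x, hx, rfl⟩, f.injective.injOn, fun _ ⟨x, hx, e⟩ => ⟨x, hx, e⟩⟩,
    fun n g x _ => f.map_fun g x, fun n r x _ => f.map_rel r x⟩

theorem exists_isoOn_of_embedding [Nonempty W'] {A : L.Substructure W} (f : A ↪[L] W') :
    ∃ φ : W → W', IsoOn φ A f.toHom.range ∧ ∀ x : A, φ x = f x := by
  obtain ⟨φ, h⟩ := map_ext (f : A → W')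
  exact ⟨φ, map_iso f h, h⟩

/-- union of a chain of partial isomorphisms -/
theorem isoOn_chain {ι : Type u} [LinearOrder ι] [Nonempty ι] (φ : ι → W → W')
    (A : ι → L.Substructure W) (A' : ι → L.Substructure W') (h : ∀ i, IsoOn (φ i) (A i) (A' i))
    (hA : Monotone A) (he : ∀ i j, i ≤ j → EqOn (φ i) (φ j) (A i)) :
    ∃ ψ : W → W', IsoOn ψ (⨆ i, A i) (⨆ i, A' i) ∧ ∀ i, EqOn (φ i) ψ (A i) := by
  obtain ⟨ψ, hψ⟩ := map_glue φ A he
  have k : ∀ i, IsoOn ψ (A i) (A' i) := fun i => (h i).congr (hψ i)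
  have hA' : Monotone A' := fun i j hij => (k i).le (k j) (hA hij)
  have m := fun x => (FirstOrder.Language.Substructure.mem_iSup_of_directed
    hA.directed_le (x := x)).1
  refine ⟨ψ, ⟨⟨fun x hx => ?_, fun x hx y hy e => ?_, fun y hy => ?_⟩, fun n f x hx => ?_,
    fun n r x hx => ?_⟩, hψ⟩
  · obtain ⟨i, hi⟩ := m x hx
    exact le_iSup A' i ((k i).1.mapsTo hi)
  · obtain ⟨i, hi⟩ := m x hx
    obtain ⟨j, hj⟩ := m y hy
    exact (k (max i j)).1.injOn (hA (le_max_left i j) hi) (hA (le_max_right i j) hj) e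
  · obtain ⟨i, hi⟩ :=
      (FirstOrder.Language.Substructure.mem_iSup_of_directed hA'.directed_le).1 hy
    obtain ⟨x, hx, e⟩ := (k i).1.surjOn hi
    exact ⟨x, le_iSup A i hx, e⟩
  · obtain ⟨i, hi⟩ := map_fin hA hx
    exact (k i).2.1 n f x hi
  · obtain ⟨i, hi⟩ := map_fin hA hx
    exact (k i).2.2 n r x hi

/-- union of a chain of partial homomorphisms -/
theorem homOn_chain {ι : Type u} [LinearOrder ι] [Nonempty ι] (φ : ι → W → W')
    (A : ι → L.Substructure W) (h : ∀ i, HomOn (φ i) (A i))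
    (hA : Monotone A) (he : ∀ i j, i ≤ j → EqOn (φ i) (φ j) (A i)) :
    ∃ ψ : W → W', HomOn ψ (⨆ i, A i) ∧ ∀ i, EqOn (φ i) ψ (A i) := by
  obtain ⟨ψ, hψ⟩ := map_glue φ A he
  have k : ∀ i, HomOn ψ (A i) := fun i => (h i).congr (hψ i)
  refine ⟨ψ, ⟨fun n f x hx => ?_, fun n r x hx => ?_⟩, hψ⟩
  · obtain ⟨i, hi⟩ := map_fin hA hx
    exact (k i).1 n f x hi
  · obtain ⟨i, hi⟩ := map_fin hA hx
    exact (k i).2 n r x hi

end Vale.Agent.P307P
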