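import Vale.Agent.P307P.Base

/-! Elementary lemmas on `HomOn` and `IsoOn`. -/

open Cardinal FirstOrder Set
open FirstOrder.Language.Structure

universe u

namespace Vale.Agent.P307P

variable {L : FirstOrder.Language.{u, u}} {K : AEC L} {l θ : Cardinal.{u}}
  {W W' W'' : Type u} [L.Structure W] [L.Structure W'] [L.Structure W'']

theorem homOn_id (A : L.Substructure W) : HomOn (id : W → W) A := by
  exact ⟨fun _ _ _ _ => rfl, fun _ _ _ _ h => h⟩

theorem isoOn_id (A : L.Substructure W) : IsoOn (id : W → W) A A := by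
  exact ⟨bijOn_id _, fun _ _ _ _ => rfl, fun _ _ _ _ => Iff.rfl⟩

theorem IsoOn.homOn {φ : W → W'} {A : L.Substructure W} {A' : L.Substructure W'}
    (h : IsoOn φ A A') : HomOn φ A := by
  exact ⟨h.2.1, fun n r x hx a => (h.2.2 n r x hx).2 a⟩

theorem HomOn.mono {φ : W → W'} {A B : L.Substructure W} (h : HomOn φ B) (hAB : A ≤ B) :
    HomOn φ A := by
  exact ⟨fun n f x hx => h.1 n f x fun i => hAB (hx i),
    fun n r x hx => h.2 n r x fun i => hAB (hx i)⟩

theorem HomOn.congr {φ ψ : W → W'} {A : L.Substructure W} (h : HomOn φ A) (he : EqOn φ ψ A) :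
    HomOn ψ A := by
  have e : ∀ (n : ℕ) (x : Fin n → W), (∀ i, x i ∈ A) → ψ ∘ x = φ ∘ x :=
    fun n x hx => funext fun i => (he (hx i)).symm
  refine ⟨fun n f x hx => ?_, fun n r x hx a => ?_⟩
  · rw [e n x hx, ← h.1 n f x hx]
    exact (he (A.fun_mem f x hx)).symm
  · rw [e n x hx]
    exact h.2 n r x hx a

theorem IsoOn.congr {φ ψ : W → W'} {A : L.Substructure W} {A' : L.Substructure W'}
    (h : IsoOn φ A A') (he : EqOn φ ψ A) : IsoOn ψ A A' := by
  refine ⟨h.1.congr he, (h.homOn.congr he).1, fun n r x hx => ?_⟩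
  have e : ψ ∘ x = φ ∘ x := funext fun i => (he (hx i)).symm
  rw [e]
  exact h.2.2 n r x hx

theorem HomOn.comp {φ : W → W'} {ψ : W' → W''} {A : L.Substructure W} {D : L.Substructure W'}
    (h2 : HomOn ψ D) (h1 : HomOn φ A) (hm : MapsTo φ A D) : HomOn (ψ ∘ φ) A := by
  refine ⟨fun n f x hx => ?_, fun n r x hx a => ?_⟩
  · rw [Function.comp_apply, h1.1 n f x hx, h2.1 n f (φ ∘ x) fun i => hm (hx i)]
    rfl
  · exact h2.2 n r (φ ∘ x) (fun i => hm (hx i)) (h1.2 n r x hx a)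

theorem IsoOn.comp {φ : W → W'} {ψ : W' → W''} {A : L.Substructure W} {A' : L.Substructure W'}
    {A'' : L.Substructure W''} (h2 : IsoOn ψ A' A'') (h1 : IsoOn φ A A') :
    IsoOn (ψ ∘ φ) A A'' := by
  exact ⟨h2.1.comp h1.1, (h2.homOn.comp h1.homOn h1.1.mapsTo).1, fun n r x hx =>
    (h2.2.2 n r (φ ∘ x) fun i => h1.1.mapsTo (hx i)).trans (h1.2.2 n r x hx)⟩

/-- `Function.invFunOn φ A` -/
theorem IsoOn.exists_symm [Nonempty W] {φ : W → W'} {A : L.Substructure W}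
    {A' : L.Substructure W'} (h : IsoOn φ A A') :
    ∃ ψ : W' → W, IsoOn ψ A' A ∧ (∀ x ∈ A, ψ (φ x) = x) ∧ ∀ y ∈ A', φ (ψ y) = y := by
  have i := h.1.invOn_invFunOn
  have b : BijOn (Function.invFunOn φ A) A' A := h.1.symm i.symm
  have e : ∀ (n : ℕ) (y : Fin n → W'), (∀ i, y i ∈ A') → φ ∘ (Function.invFunOn φ A ∘ y) = y :=
    fun n y hy => funext fun k => i.2 (hy k)
  refine ⟨Function.invFunOn φ A, ⟨b, fun n f y hy => ?_, fun n r y hy => ?_⟩, fun x hx => i.1 hx,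
    fun y hy => i.2 hy⟩
  · have m : ∀ k, (Function.invFunOn φ A ∘ y) k ∈ A := fun k => b.mapsTo (hy k)
    have a := h.2.1 n f _ m
    rw [e n y hy] at a
    rw [← a]
    exact i.1 (A.fun_mem f _ m)
  · have a := h.2.2 n r (Function.invFunOn φ A ∘ y) fun k => b.mapsTo (hy k)
    rw [e n y hy] at a
    exact a.symm

/-- the image of a smaller substructure -/
theorem IsoOn.restrict {φ : W → W'} {A B : L.Substructure W} {B' : L.Substructure W'}
    (h : IsoOn φ B B') (hAB : A ≤ B) : ∃ A' : L.Substructure W', A' ≤ B' ∧ IsoOn φ A A' := by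
  refine ⟨⟨φ '' A, fun {n} f y hy => ?_⟩, ?_, (h.1.injOn.mono hAB).bijOn_image,
    fun n f x hx => h.2.1 n f x fun i => hAB (hx i),
    fun n r x hx => h.2.2 n r x fun i => hAB (hx i)⟩
  · choose x hx e using hy
    refine ⟨funMap f x, A.fun_mem f x hx, ?_⟩
    rw [h.2.1 n f x fun i => hAB (hx i)]
    exact congrArg _ (funext e)
  · rintro _ ⟨x, hx, rfl⟩
    exact h.1.mapsTo (hAB hx)

theorem IsoOn.unique {φ : W → W'} {A : L.Substructure W} {A' A'' : L.Substructure W'}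
    (h1 : IsoOn φ A A') (h2 : IsoOn φ A A'') : A' = A'' := by
  exact SetLike.coe_injective (h1.1.image_eq.symm.trans h2.1.image_eq)

theorem IsoOn.le {φ : W → W'} {A B : L.Substructure W} {A' B' : L.Substructure W'}
    (h1 : IsoOn φ A A') (h2 : IsoOn φ B B') (hAB : A ≤ B) : A' ≤ B' := by
  intro y hy
  obtain ⟨x, hx, rfl⟩ := h1.1.surjOn hy
  exact h2.1.mapsTo (hAB hx)

theorem IsoOn.card_eq {φ : W → W'} {A : L.Substructure W} {A' : L.Substructure W'}
    (h : IsoOn φ A A') : #A' = #A := by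
  exact (Cardinal.mk_congr (h.1.equiv φ)).symm

/-- mutually inverse homomorphisms -/
theorem isoOn_of_inverse {φ : W → W'} {ψ : W' → W} {P : L.Substructure W}
    {P' : L.Substructure W'} (h1 : HomOn φ P) (m1 : MapsTo φ P P') (h2 : HomOn ψ P')
    (m2 : MapsTo ψ P' P) (i1 : ∀ x ∈ P, ψ (φ x) = x) (i2 : ∀ y ∈ P', φ (ψ y) = y) :
    IsoOn φ P P' := by
  refine ⟨InvOn.bijOn ⟨i1, i2⟩ m1 m2, h1.1, fun n r x hx => ⟨fun a => ?_, h1.2 n r x hx⟩⟩
  have b := h2.2 n r (φ ∘ x) (fun i => m1 (hx i)) a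
  have e : ψ ∘ φ ∘ x = x := funext fun i => i1 _ (hx i)
  rwa [e] at b

end Vale.Agent.P307P
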