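import Vale.Agent.P307P.Lc
import Vale.Agent.P307P.Fre

/-! Minimal types. -/

open Cardinal FirstOrder Set
open FirstOrder.Language.Structure

universe u

namespace Vale.Agent.P307P

variable {L : FirstOrder.Language.{u, u}} {K : AEC L} {l θ : Cardinal.{u}}
  {W W' W'' : Type u} [L.Structure W] [L.Structure W'] [L.Structure W'']

theorem min0_sup {ρ : Cardinal.{u}} (hρ : ℵ₀ ≤ ρ) {c : W} {κ : Type u} [LinearOrder κ]
    [WellFoundedLT κ] [Nonempty κ] (F : κ → L.Substructure W) (hκ : #κ ≤ ρ) (hF : Monotone F)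
    (h : ∀ i, Str K (F i) ⊤ ∧ #(F i) = ρ ∧ c ∉ F i) :
    Str K (⨆ i, F i) ⊤ ∧ #(⨆ i, F i : L.Substructure W) = ρ ∧ c ∉ ⨆ i, F i := by
  obtain ⟨i⟩ := ‹Nonempty κ›
  refine ⟨str_chain_smooth F hF fun i => (h i).1, le_antisymm
    (card_iSup_le F hF hρ hκ fun i => (h i).2.1.le)
    ((h i).2.1.ge.trans (card_mono (le_iSup F i))), fun hc => ?_⟩
  obtain ⟨j, hj⟩ := (mem_iSup_mono F hF c).1 hc
  exact (h j).2.2 hj

/-- Take `A₀ ≤_K ⊤` of size `ρ` and `c ∉ A₀`. If no `A` works with this `c`: `rec_family` along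
`(succ l).ord.ToType` (`Good A := Str K A ⊤ ∧ #A = ρ ∧ c ∉ A`, `Le := (· ≤ ·)`, `size := 0`,
`m = l`, `μ = succ l`, `Rel _ A M := ¬ Free K θ A M c`). `V = ⨆ F i` has size `ρ`, `c ∉ V`;
`Ctx.lc` for `V ≤ N` (hull of `V ∪ {c}`), `s = {c}`, size `l`: `A` lies in some `F i ≤ B j`
(`subset_member`); `free_of_po` gives `Free (B j) (F j) c`. -/
theorem Ctx.exists_min (h : Ctx K l) (hm : Mon K l θ W) {ρ : Cardinal.{u}} (hρ : l < ρ)
    (hρθ : ρ ≤ θ) (hc : K.Categorical ρ) :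
    ∃ (A : L.Substructure W) (c : W), IsMin K θ ρ A c := by
  have l0 := h.ls.inf
  have ρ0 := l0.trans hρ.le
  have ht : ρ < #(⊤ : L.Substructure W) :=
    (hρθ.trans_lt hm.big).trans_eq (mk_congr Language.Substructure.topEquiv.toEquiv).symm
  obtain ⟨A₀, a1, -, a2⟩ := exists_str_card h.ls hρ.le hm.top ht.le ∅ (empty_subset _) (by simp)
  obtain ⟨c, -, a3⟩ := exists_not_mem_of_card_lt (a2.trans_lt ht)
  by_contra hcon
  haveI := nonempty_ord_toType (l0.trans (Order.le_succ l))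
  obtain ⟨F, B, hF, hB⟩ := rec_family (ι := (Order.succ l).ord.ToType)
    (fun A : L.Substructure W => Str K A ⊤ ∧ #A = ρ ∧ c ∉ A) (· ≤ ·) (fun _ => 0)
    (fun _ A M => ¬ Free K θ A M c) A₀ l0 (Order.lt_succ l) mk_Iio_toType_ord_lt ⟨a1, a2, a3⟩ zero_le
    (fun _ _ => le_rfl) (fun _ _ _ => le_trans)
    (fun _ A _ _ _ hA _ _ => by
      by_contra hn
      exact hcon ⟨A, c, hA.1, hA.2.1, hA.2.2, fun M h1 h2 h3 h4 =>
        by_contra fun h5 => hn ⟨M, ⟨h2, h3, h4⟩, h1, h5, zero_le⟩⟩)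
    fun κ _ _ _ G _ _ h1 h2 h3 h4 => ⟨⨆ i, G i, min0_sup ρ0 G
      ((h2.trans (Order.le_of_lt_succ h1)).trans hρ.le) h4 fun i => (h3 i).1, zero_le, le_iSup G⟩
  obtain ⟨v1, v2, -⟩ := min0_sup ρ0 F ((mk_ord_toType _).trans_le (Order.succ_le_of_lt hρ)) hF
    fun i => (hB i).1
  obtain ⟨N, n1, n2, n3⟩ := hm.hull hρ.le (((⨆ i, F i : L.Substructure W) : Set W) ∪ {c})
    (card_union_le ρ0 v2.le ((mk_singleton c).trans_le (one_le_aleph0.trans ρ0)))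
  obtain ⟨A, B', P, p1, p2, p3, p4, p5⟩ := h.lc (v1.coh n1 fun x hx => n2 (Or.inl hx))
    (v2.symm ▸ hc) (hρ.le.trans v2.ge) le_rfl {c} (subset_union_right.trans n2)
    ((mk_singleton c).trans_le (one_le_aleph0.trans l0))
  obtain ⟨i, hi⟩ := subset_member l0 (fun i => (F i : Set W)) hF A
    ((card_mono p1.1.ab.le).trans p4) fun x hx =>
      mem_iUnion.2 ((mem_iSup_mono F hF x).1 (p1.1.am.le hx))
  obtain ⟨j, hj⟩ := exists_gt_toType (l0.trans (Order.le_succ l)) i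
  obtain ⟨b1, b2, -, b3, b4, b5, -⟩ := hB j
  exact b5 (free_of_po h.po p5 p1 (p2.trans n1) ((card_mono p2.le).trans (n3.trans hρθ)) (p3 rfl)
    ((p1.1.am.trans v1).coh b2.1 fun x hx => b3 i hj (hi hx)) (b2.1.coh b1.1 b4)
    (b1.1.coh v1 (le_iSup F j)))

end Vale.Agent.P307P
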