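import Vale.Agent.P307P.Mon0

/-! Partial isomorphisms and pushouts inside a monster model. -/

open Cardinal FirstOrder Set
open FirstOrder.Language.Structure

universe u

namespace Vale.Agent.P307P

variable {L : FirstOrder.Language.{u, u}} {K : AEC L} {l θ : Cardinal.{u}}
  {W W' W'' : Type u} [L.Structure W] [L.Structure W'] [L.Structure W'']

/-- a free copy: `exists_po`, then `h.univ` embeds the pushout over `M` (size by
`PrePO.card_le`), `IsPO.iso` -/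
theorem Mon.po_exists (h : Mon K l θ W) {A B M : L.Substructure W} (hne : (A : Set W).Nonempty)
    (hAB : Str K A B) (hAM : Str K A M) (hM : Str K M ⊤) (hBc : #B ≤ θ) (hMc : #M ≤ θ) :
    ∃ (φ : W → W) (B' P : L.Substructure W), IsoOn φ B B' ∧ EqOn φ id A ∧ IsPO K A B' M P ∧
      Str K P ⊤ ∧ #P ≤ θ := by
  obtain ⟨W₃, _, φ₁, φ₂, A₃, B₃, M₃, a1, b1, -, m2, e, p⟩ :=
    exists_po h.po hne hAB hAM (isoOn_id A)
  have := h.nonempty
  have : Nonempty W₃ := ⟨φ₁ hne.some⟩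
  obtain ⟨ψ, s1, s2, -⟩ := m2.exists_symm
  have c : #(⊤ : L.Substructure W₃) ≤ θ :=
    p.1.card_le h.ls h.le (b1.card_eq.trans_le hBc) (m2.card_eq.trans_le hMc)
  obtain ⟨χ, P, x1, x2, x3⟩ := h.univ W₃ M₃ ⊤ M ψ p.1.mp c hM s1
  obtain ⟨B', -, y1⟩ := x1.restrict (le_top : B₃ ≤ ⊤)
  obtain ⟨A', -, y2⟩ := x1.restrict (le_top : A₃ ≤ ⊤)
  have z : EqOn (χ ∘ φ₁) id A := fun x hx => (congrArg χ (e hx)).trans
    ((x3 (m2.1.mapsTo (hAM.le hx))).symm.trans (s2 x (hAM.le hx)))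
  obtain rfl := ((y2.comp a1).congr z).unique (isoOn_id A)
  exact ⟨χ ∘ φ₁, B', P, y1.comp b1, z, p.iso y2 y1 (s1.congr x3) x1, x2, x1.card_eq.trans_le c⟩

/-- `po_exists` for `(D, P)` over `B`, then paste (with `symm`) -/
theorem Mon.po_enlarge (h : Mon K l θ W) {A B M P D : L.Substructure W}
    (hne : (A : Set W).Nonempty) (hP : IsPO K A B M P) (hP' : Str K P ⊤) (hPc : #P ≤ θ)
    (hBD : Str K B D) (hDc : #D ≤ θ) :
    ∃ (φ : W → W) (D' R : L.Substructure W), IsoOn φ D D' ∧ EqOn φ id B ∧ IsPO K A D' M R ∧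
      Str K R ⊤ ∧ #R ≤ θ := by
  obtain ⟨φ, D', R, a, b, c, d⟩ := h.po_exists (hne.mono hP.1.ab.le) hBD hP.1.bp hP' hDc hPc
  exact ⟨φ, D', R, a, b, (hP.symm.paste c.symm).symm, d⟩

end Vale.Agent.P307P
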