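import Vale.Agent.P307P.Solve

/-! The monster model. Take a model `V` of size `k > θ` (from `unb`), `n = k`, `#Ω = succ (2 ^ n)`.
`rec_family` on `PM L Ω` along `ι = (succ n).ord.ToType` (`m = 2 ^ n`, `μ = succ (2 ^ n)`,
`size M = #M.s`, `Good M := K.Mem M.s`, `Rel _ M N := ∃ e : M.s ↪[L] N.s, (∀ x, (e x : Ω) = x) ∧
Solves K n e`; step: `solve_all`, `PM.exists_rename`, `Solves.comp`). `W = U.s` for the union `U`
of the `F i`. Given a problem `(A ≤ B, A', φ)`: `A'` has size `≤ θ ≤ n`, so it lies in some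
`(F i).s ⊆ (B j).s`, `i < j` (`subset_member`, `exists_gt_toType`); it is strong there by
`strong_coh`; `Solves` gives `g`; compose with `F j ≤ U`; `exists_isoOn_of_embedding`. -/

open Cardinal FirstOrder Set
open FirstOrder.Language.Structure

universe u

namespace Vale.Agent.P307P

variable {L : FirstOrder.Language.{u, u}} {K : AEC L} {l θ : Cardinal.{u}}
  {W W' W'' : Type u} [L.Structure W] [L.Structure W'] [L.Structure W'']

/-- A problem whose base lies in the range of a solving strong embedding is solved. -/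
theorem monster_solve {n : Cardinal.{u}} {N U : Type u} [L.Structure N] [L.Structure U] [Nonempty U]
    (f : N ↪[L] U) (hf : K.Strong U f.toHom.range) (hS : Solves K n f)
    (A B : L.Substructure W') (A' : L.Substructure U) (φ : W' → U) (hAB : Str K A B) (hB : #B ≤ n)
    (hA' : Str K A' ⊤) (hφ : IsoOn φ A A') (hr : A' ≤ f.toHom.range) :
    ∃ (ψ : W' → U) (B' : L.Substructure U), IsoOn ψ B B' ∧ Str K B' ⊤ ∧ EqOn φ ψ A := by
  have hmap : (A'.comap f.toHom).map f.toHom = A' := by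
    refine le_antisymm Language.Substructure.map_comap_le fun x hx => ?_
    obtain ⟨y, rfl⟩ := hr hx
    exact ⟨y, hx, rfl⟩
  have h0 : K.Strong N (A'.comap f.toHom) := by
    rw [← str_top_iff, ← str_map_iff f, hmap, ← Language.Hom.range_eq_map]
    exact hA'.coh ((str_top_iff _).2 hf) hr
  have hi := isoOn_embedding f (A'.comap f.toHom)
  rw [hmap] at hi
  obtain ⟨e1, he1⟩ := hi.exists_equiv
  obtain ⟨e2, he2⟩ := hφ.exists_equiv
  let e3 : (A'.comap f.toHom) ≃[L] A := e2.symm.comp e1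
  let a : (A'.comap f.toHom) ↪[L] B :=
    (Language.Substructure.inclusion hAB.le).comp e3.toEmbedding
  have ha : K.Strong B a.toHom.range := by
    have e : a.toHom.range = A.comap B.subtype.toHom := by
      ext x
      constructor
      · rintro ⟨y, rfl⟩
        exact (e3 y).2
      · intro hx
        refine ⟨e3.symm ⟨x, hx⟩, Subtype.ext ?_⟩
        show ((e3 (e3.symm ⟨x, hx⟩) : A) : W') = x
        rw [e3.apply_symm_apply]
    rw [e]
    exact hAB.2
  obtain ⟨g, hg, hga⟩ := hS _ B a h0 ha hB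
  obtain ⟨ψ, hψ, hψg⟩ := exists_isoOn_of_embedding g
  refine ⟨ψ, _, hψ, (str_top_iff _).2 hg, fun y hy => ?_⟩
  have k1 : a (e3.symm ⟨y, hy⟩) = ⟨y, hAB.le hy⟩ := by
    refine Subtype.ext ?_
    show ((e3 (e3.symm ⟨y, hy⟩) : A) : W') = y
    rw [e3.apply_symm_apply]
  have k2 : e1 (e3.symm ⟨y, hy⟩) = e2 ⟨y, hy⟩ := by
    have k3 : e2.symm (e1 (e3.symm ⟨y, hy⟩)) = ⟨y, hy⟩ := e3.apply_symm_apply _
    rw [← k3, e2.apply_symm_apply, k3]
  have k4 := hga (e3.symm ⟨y, hy⟩)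
  rw [k1, ← hψg, ← he1, k2, he2] at k4
  exact k4.symm

/-- The chain of solving extensions. -/
theorem monster_chain (hl : K.LSBound l) (hpo : K.HasPushouts) {n : Cardinal.{u}} (hn : l ≤ n)
    {Ω : Type u} (hΩ : #Ω = Order.succ (2 ^ n)) (M₀ : PM L Ω) (h0 : K.Mem M₀.s)
    (hc : #M₀.s ≤ 2 ^ n) :
    ∃ F B : (Order.succ n).ord.ToType → PM L Ω, (∀ i j, i ≤ j → PM.Le K (F i) (F j)) ∧
      ∀ i, PM.Le K M₀ (B i) ∧ (∀ j, j < i → PM.Le K (F j) (B i)) ∧ PM.Le K (B i) (F i) ∧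
        ∃ e : (B i).s ↪[L] (F i).s, (∀ x, (e x : Ω) = x) ∧ Solves K n e := by
  have hinf : ℵ₀ ≤ n := hl.inf.trans hn
  have hm : ℵ₀ ≤ 2 ^ n := hinf.trans (cantor n).le
  have hlt : (2 : Cardinal.{u}) ^ n < Order.succ (2 ^ n) := Order.lt_succ _
  have : Infinite Ω := Cardinal.infinite_iff.2 (hΩ ▸ hm.trans hlt.le)
  obtain ⟨F, B, hF, hB⟩ := rec_family (ι := (Order.succ n).ord.ToType)
    (fun M : PM L Ω => K.Mem M.s) (PM.Le K) (fun M => #M.s)
    (fun _ M N => ∃ e : M.s ↪[L] N.s, (∀ x, (e x : Ω) = x) ∧ Solves K n e) M₀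
    (m := 2 ^ n) (μ := Order.succ (2 ^ n)) hm hlt
    (fun i => lt_of_le_of_lt ((mk_set_le _).trans
      ((mk_ord_toType _).le.trans (Order.succ_le_of_lt (cantor n)))) hlt)
    h0 hc (fun _ ha => PM.le_refl' ha) (fun _ _ _ h1 h2 => h1.trans h2)
    (fun _ a c h1 h2 ha _ hs => by
      have hs' : #a.s ≤ 2 ^ n := hs.trans (Order.lt_succ_iff.1 h2)
      obtain ⟨V', _, f, hf, hV', hS⟩ := solve_all hl hpo hn a.s ha hs'
      obtain ⟨N', e, hle, he⟩ := PM.exists_rename a f hf (by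
        rw [mk_compl_of_infinite _ (hΩ ▸ hs'.trans_lt hlt), hΩ]
        exact hV'.trans hlt.le)
      refine ⟨N', hle.mem_right, hle, ⟨e.toEmbedding.comp f, he,
        hS.comp _ (strong_equiv e (K.mem_of_strong_right _ _ hf))⟩, ?_⟩
      exact (Cardinal.mk_congr e.toEquiv).ge.trans (hV'.trans h1))
    (fun κ _ _ _ G c h1 _ h3 h4 h5 => by
      obtain ⟨U, hU, hle⟩ := PM.exists_union G h5
      refine ⟨U, (hle (Classical.arbitrary κ)).mem_right, ?_, hle⟩
      show #U.s ≤ c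
      rw [hU]
      refine (mk_iUnion_le _).trans ?_
      rw [← mul_eq_self h1]
      exact mul_le_mul' h3 (ciSup_le' fun i => (h4 i).2))
  exact ⟨F, B, hF, fun i => ⟨(hB i).2.2.1, (hB i).2.2.2.1, (hB i).2.2.2.2.1, (hB i).2.2.2.2.2.1⟩⟩

theorem Ctx.exists_mon (h : Ctx K l) (hθ : l ≤ θ) :
    ∃ (W : Type u) (_ : L.Structure W), Mon K l θ W := by
  obtain ⟨n, hn, ⟨V, _, hV, hVc⟩, -⟩ := h.unb (Order.succ θ)
  have hθn : θ < n := Order.succ_le_iff.1 hn
  have hln : l ≤ n := hθ.trans hθn.le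
  have hinf : ℵ₀ ≤ n := h.ls.inf.trans hln
  obtain ⟨M₀, ⟨e₀⟩⟩ := PM.exists_copy (L := L)
    (Ω := (Order.succ ((2 : Cardinal.{u}) ^ n)).out) V (by
    rw [mk_out, hVc]
    exact (cantor n).le.trans (Order.le_succ _))
  have hc0 : #M₀.s = n := (Cardinal.mk_congr e₀.toEquiv).symm.trans hVc
  obtain ⟨F, B, hF, hB⟩ := monster_chain h.ls h.po hln (mk_out _) M₀ (K.mem_iso _ _ e₀ hV)
    (hc0.le.trans (cantor n).le)
  have hinf' : ℵ₀ ≤ Order.succ n := hinf.trans (Order.le_succ n)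
  have := nonempty_ord_toType hinf'
  obtain ⟨U, hU, hle⟩ := PM.exists_union F hF
  obtain ⟨i₀⟩ := nonempty_ord_toType hinf'
  have hbig : θ < #U.s := hθn.trans_le (hc0.ge.trans (mk_le_mk_of_subset
    (((hB i₀).1.trans ((hB i₀).2.2.1.trans (hle i₀))).subset)))
  have : Nonempty U.s := Cardinal.mk_ne_zero_iff.1 (ne_of_gt (lt_of_le_of_lt zero_le hbig))
  refine ⟨U.s, inferInstance, h.ls, h.po, hθ, (hle i₀).mem_right, hbig, ?_⟩
  intro W₁ _ A B₁ A' φ hAB hB₁ hA' hφ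
  have hcard : #(Subtype.val '' (A' : Set U.s)) ≤ n :=
    mk_image_le.trans (hφ.card_eq.le.trans ((card_mono hAB.le).trans (hB₁.trans hθn.le)))
  obtain ⟨i, hi⟩ := subset_member hinf (fun i => (F i).s) (fun i j hij => (hF i j hij).subset)
    _ hcard (by
      rintro _ ⟨x, -, rfl⟩
      rw [← hU]
      exact x.2)
  obtain ⟨j, hj⟩ := exists_gt_toType hinf' i
  obtain ⟨e, he, hS⟩ := (hB j).2.2.2
  obtain ⟨eF, heF, hsF⟩ := hle j
  obtain ⟨eN, heN, hsN⟩ := (hB j).2.2.1.trans (hle j)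
  have hEq : eF.comp e = eN := by
    ext x
    show (eF (e x)).1 = (eN x).1
    rw [heF, he, heN]
  have hS' := hS.comp eF hsF
  rw [hEq] at hS'
  refine monster_solve eN hsN hS' A B₁ A' φ hAB (hB₁.trans hθn.le) hA' hφ fun x hx => ?_
  exact ⟨⟨x.1, ((hB j).2.1 i hj).subset (hi ⟨x, hx, rfl⟩)⟩, Subtype.ext (heN _)⟩

end Vale.Agent.P307P
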