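import Vale.Agent.P307P.Api

/-! Structures on subsets of a fixed type. -/

open Cardinal FirstOrder Set
open FirstOrder.Language.Structure

universe u

namespace Vale.Agent.P307P

variable {L : FirstOrder.Language.{u, u}} {K : AEC L} {l θ : Cardinal.{u}}
  {W W' W'' : Type u} [L.Structure W] [L.Structure W'] [L.Structure W'']

variable {Ω : Type u}

theorem PM.le_refl' {M : PM L Ω} (h : K.Mem M.s) : PM.Le K M M := by
  refine ⟨Language.Embedding.refl L M.s, fun _ => rfl, ?_⟩
  have e : (Language.Embedding.refl L M.s).toHom.range = ⊤ := eq_top_iff.2 fun x _ => ⟨x, rfl⟩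
  rw [e]
  exact K.strong_refl _ h

theorem PM.Le.subset {M N : PM L Ω} (h : PM.Le K M N) : M.s ⊆ N.s := by
  obtain ⟨e, he, -⟩ := h
  intro x hx
  have h1 := (e ⟨x, hx⟩).2
  rwa [he] at h1

theorem PM.Le.mem_right {M N : PM L Ω} (h : PM.Le K M N) : K.Mem N.s := by
  obtain ⟨e, -, he⟩ := h
  exact K.mem_of_strong_right _ _ he

/-- `K.strong_trans` (or `Str.trans` in the ambient `P.s`, `str_map_iff`) -/
theorem PM.Le.trans {M N P : PM L Ω} (h1 : PM.Le K M N) (h2 : PM.Le K N P) : PM.Le K M P := by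
  obtain ⟨e, he, hs⟩ := h1
  obtain ⟨e', he', hs'⟩ := h2
  refine ⟨e'.comp e, fun x => (he' _).trans (he x), (str_top_iff _).1 ?_⟩
  have h3 := (str_map_iff e' _ _).2 ((str_top_iff _).2 hs)
  rw [← Language.Hom.range_eq_map, ← Language.Hom.range_comp] at h3
  exact h3.trans ((str_top_iff _).2 hs')

theorem pm0_copy {V : Type u} [L.Structure V] {r : V → Ω} (hr : Function.Injective r) :
    ∃ (M : PM L Ω) (e : V ≃[L] M.s), ∀ x, (e x : Ω) = r x :=
  ⟨⟨range r, (Equiv.ofInjective r hr).inducedStructure⟩,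
    (Equiv.ofInjective r hr).inducedStructureEquiv, fun _ => rfl⟩

/-- Renaming an extension: an injection `r : N → Ω` with `r (f x) = x` (send the complement of
the range of `f` into the complement of `M.s`), `N'.s = range r`, `Equiv.inducedStructure`. -/
theorem PM.exists_rename (M : PM L Ω) {N : Type u} [L.Structure N] (f : M.s ↪[L] N)
    (hf : K.Strong N f.toHom.range) (hc : #N ≤ #(M.sᶜ : Set Ω)) :
    ∃ (N' : PM L Ω) (e : N ≃[L] N'.s), PM.Le K M N' ∧ ∀ x, (e (f x) : Ω) = x := by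
  classical
  obtain ⟨j⟩ := (Cardinal.le_def _ _).1 hc
  let r : N → Ω := fun y => if h : ∃ x, f x = y then (h.choose : Ω) else (j y : Ω)
  have r1 : ∀ x, r (f x) = x := fun x => by
    have h : ∃ x', f x' = f x := ⟨x, rfl⟩
    simp only [r, dif_pos h]
    rw [f.injective h.choose_spec]
  have r2 : ∀ y, (¬∃ x, f x = y) → r y = j y := fun y h => dif_neg h
  have hr : Function.Injective r := fun y z h => by
    by_cases hy : ∃ x, f x = y <;> by_cases hz : ∃ x, f x = z
    · obtain ⟨x, rfl⟩ := hy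
      obtain ⟨x', rfl⟩ := hz
      rw [r1, r1] at h
      rw [Subtype.ext h]
    · obtain ⟨x, rfl⟩ := hy
      rw [r1, r2 z hz] at h
      exact absurd (h ▸ x.2) (j z).2
    · obtain ⟨x, rfl⟩ := hz
      rw [r1, r2 y hy] at h
      exact absurd (h ▸ x.2) (j y).2
    · rw [r2 y hy, r2 z hz] at h
      exact j.injective (Subtype.ext h)
  obtain ⟨N', e, he⟩ := pm0_copy (L := L) hr
  refine ⟨N', e, ⟨e.toEmbedding.comp f, fun x => (he _).trans (r1 x), ?_⟩,
    fun x => (he _).trans (r1 x)⟩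
  have h1 := K.strong_iso _ _ e _ hf
  rw [← Language.Hom.range_comp] at h1
  exact h1

theorem PM.exists_copy (V : Type u) [L.Structure V] (hc : #V ≤ #Ω) :
    ∃ M : PM L Ω, Nonempty (V ≃[L] M.s) := by
  obtain ⟨j⟩ := (Cardinal.le_def _ _).1 hc
  obtain ⟨M, e, -⟩ := pm0_copy (L := L) j.injective
  exact ⟨M, ⟨e⟩⟩

end Vale.Agent.P307P
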