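import Vale.Agent.P307P.Api

/-! Formal properties of pushouts. -/

open Cardinal FirstOrder Set
open FirstOrder.Language.Structure

universe u

namespace Vale.Agent.P307P

variable {L : FirstOrder.Language.{u, u}} {K : AEC L} {l θ : Cardinal.{u}}
  {W W' W'' : Type u} [L.Structure W] [L.Structure W'] [L.Structure W'']

theorem PrePO.symm {A B M P : L.Substructure W} (h : PrePO K A B M P) : PrePO K A M B P :=
  ⟨h.am, h.ab, h.mp, h.bp, fun W' _ D hD φ ψ h1 h2 m1 m2 e =>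
    (h.ex W' D hD ψ φ h2 h1 m2 m1 e.symm).imp fun _ k => ⟨k.1, k.2.1, k.2.2.2, k.2.2.1⟩,
    fun W' _ D hD χ χ' h1 h2 m1 m2 e1 e2 => h.uq W' D hD χ χ' h1 h2 m1 m2 e2 e1⟩

theorem IsPO.symm {A B M P : L.Substructure W} (h : IsPO K A B M P) : IsPO K A M B P :=
  ⟨h.1.symm, (inf_comm M B).trans h.2⟩

/-- minimality: the mediating map `χ : P → N` for `id, id` equals `id` by uniqueness in `D` -/
theorem PrePO.le {A B M P D N : L.Substructure W} (h : PrePO K A B M P) (hD : K.Mem D)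
    (hN : K.Mem N) (hPD : P ≤ D) (hND : N ≤ D) (hB : B ≤ N) (hM : M ≤ N) : P ≤ N := by
  obtain ⟨χ, h1, h2, h3, h4⟩ := h.ex W N hN id id (homOn_id B) (homOn_id M) (fun _ hx => hB hx)
    (fun _ hx => hM hx) fun _ _ => rfl
  intro x hx
  have := h.uq W D hD id χ (homOn_id P) h1 (fun _ hx => hPD hx) (fun _ hx => hND (h2 hx)) h3 h4 hx
  exact (show x = χ x from this) ▸ h2 hx

theorem PrePO.card_le (hl : K.LSBound l) {A B M P : L.Substructure W} (h : PrePO K A B M P)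
    {n : Cardinal.{u}} (hn : l ≤ n) (hB : #B ≤ n) (hM : #M ≤ n) : #P ≤ n := by
  obtain ⟨N, h1, h2, h3⟩ := exists_str_ls hl hn h.bp.mem_right (B ∪ M : Set W)
    (union_subset h.bp.le h.mp.le)
    ((mk_union_le _ _).trans (add_le_of_le (hl.inf.trans hn) hB hM))
  exact (mk_le_mk_of_subset (s := (P : Set W)) (t := (N : Set W)) (h.le h.bp.mem_right h1.mem_left
    le_rfl h1.le (subset_union_left.trans h2) (subset_union_right.trans h2))).trans h3

theorem PrePO.paste {A B M' P' M P : L.Substructure W} (h1 : PrePO K A B M' P')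
    (h2 : PrePO K M' P' M P) : PrePO K A B M P := by
  refine ⟨h1.ab, h1.am.trans h2.am, h1.bp.trans h2.bp, h2.mp, fun W' _ D hD φ ψ a b c d e => ?_,
    fun W' _ D hD χ χ' a b c d e f => ?_⟩
  · obtain ⟨χ, k1, k2, k3, k4⟩ := h1.ex W' D hD φ ψ a (b.mono h2.am.le) c
      (d.mono_left h2.am.le) e
    obtain ⟨χ', j1, j2, j3, j4⟩ := h2.ex W' D hD χ ψ k1 b k2 d k4.symm
    exact ⟨χ', j1, j2, k3.trans (j3.mono h1.bp.le), j4⟩
  · exact h2.uq W' D hD χ χ' a b c d (h1.uq W' D hD χ χ' (a.mono h2.bp.le) (b.mono h2.bp.le)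
      (c.mono_left h2.bp.le) (d.mono_left h2.bp.le) e (f.mono h2.am.le)) f

theorem IsPO.paste {A B M' P' M P : L.Substructure W} (h1 : IsPO K A B M' P')
    (h2 : IsPO K M' P' M P) : IsPO K A B M P := by
  refine ⟨h1.1.paste h2.1, ?_⟩
  rw [← h1.2, ← h2.2, ← inf_assoc, inf_eq_left.2 h1.1.bp.le]

end Vale.Agent.P307P
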