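import Vale.Agent.P307P.Po0

/-! Formal properties of pushouts. -/

open Cardinal FirstOrder Set
open FirstOrder.Language.Structure

universe u

namespace Vale.Agent.P307P

variable {L : FirstOrder.Language.{u, u}} {K : AEC L} {l θ : Cardinal.{u}}
  {W W' W'' : Type u} [L.Structure W] [L.Structure W'] [L.Structure W'']

/-- uniqueness: mediating maps in both directions (`IsoOn.exists_symm`), `isoOn_of_inverse` -/
theorem PrePO.unique [Nonempty W] {A B M P : L.Substructure W} {A' B' M' P' : L.Substructure W'}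
    (h : PrePO K A B M P) (h' : PrePO K A' B' M' P') {φ ψ : W → W'} (hA : IsoOn φ A A')
    (hB : IsoOn φ B B') (hM : IsoOn ψ M M') (he : EqOn φ ψ A) :
    ∃ χ : W → W', IsoOn χ P P' ∧ EqOn φ χ B ∧ EqOn ψ χ M := by
  obtain ⟨φ', hφ', iφ1, iφ2⟩ := hB.exists_symm
  obtain ⟨ψ', hψ', iψ1, iψ2⟩ := hM.exists_symm
  obtain ⟨χ, hχ, mχ, eB, eM⟩ := h.ex W' P' h'.bp.mem_right φ ψ hB.homOn hM.homOn
    (fun x hx => h'.bp.le (hB.1.mapsTo hx)) (fun x hx => h'.mp.le (hM.1.mapsTo hx)) he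
  have he' : EqOn φ' ψ' A' := by
    intro y hy
    obtain ⟨a, ha, rfl⟩ := hA.1.surjOn hy
    rw [iφ1 a (h.ab.le ha), he ha, iψ1 a (h.am.le ha)]
  obtain ⟨χ', hχ', mχ', eB', eM'⟩ := h'.ex W P h.bp.mem_right φ' ψ' hφ'.homOn hψ'.homOn
    (fun x hx => h.bp.le (hφ'.1.mapsTo hx)) (fun x hx => h.mp.le (hψ'.1.mapsTo hx)) he'
  have i1 : EqOn (χ' ∘ χ) id P := by
    refine h.uq W P h.bp.mem_right _ _ (hχ'.comp hχ mχ) (homOn_id P) (mχ'.comp mχ)
      (mapsTo_id _) ?_ ?_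
    · intro x hx
      simp only [Function.comp, id]
      rw [← eB hx, ← eB' (hB.1.mapsTo hx), iφ1 x hx]
    · intro x hx
      simp only [Function.comp, id]
      rw [← eM hx, ← eM' (hM.1.mapsTo hx), iψ1 x hx]
  have i2 : EqOn (χ ∘ χ') id P' := by
    refine h'.uq W' P' h'.bp.mem_right _ _ (hχ.comp hχ' mχ') (homOn_id P') (mχ.comp mχ')
      (mapsTo_id _) ?_ ?_
    · intro x hx
      simp only [Function.comp, id]
      rw [← eB' hx, ← eB (hφ'.1.mapsTo hx), iφ2 x hx]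
    · intro x hx
      simp only [Function.comp, id]
      rw [← eM' hx, ← eM (hψ'.1.mapsTo hx), iψ2 x hx]
  exact ⟨χ, isoOn_of_inverse hχ mχ hχ' mχ' (fun x hx => i1 hx) (fun y hy => i2 hy), eB, eM⟩

theorem PrePO.iso [Nonempty W] {A B M P : L.Substructure W} {A' B' M' P' : L.Substructure W'}
    (h : PrePO K A B M P) {φ : W → W'} (hA : IsoOn φ A A') (hB : IsoOn φ B B')
    (hM : IsoOn φ M M') (hP : IsoOn φ P P') : PrePO K A' B' M' P' := by
  obtain ⟨φ', hφ', i1, i2⟩ := hP.exists_symm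
  refine ⟨hB.str hA h.ab, hM.str hA h.am, hP.str hB h.bp, hP.str hM h.mp, ?_, ?_⟩
  · intro V _ D hD α β hα hβ mα mβ he
    obtain ⟨χ, hχ, mχ, eB, eM⟩ := h.ex V D hD (α ∘ φ) (β ∘ φ) (hα.comp hB.homOn hB.1.mapsTo)
      (hβ.comp hM.homOn hM.1.mapsTo) (mα.comp hB.1.mapsTo) (mβ.comp hM.1.mapsTo)
      (fun x hx => he (hA.1.mapsTo hx))
    refine ⟨χ ∘ φ', hχ.comp hφ'.homOn hφ'.1.mapsTo, mχ.comp hφ'.1.mapsTo, ?_, ?_⟩
    · intro y hy
      obtain ⟨x, hx, rfl⟩ := hB.1.surjOn hy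
      simp only [Function.comp]
      rw [i1 x (h.bp.le hx), ← eB hx]
      rfl
    · intro y hy
      obtain ⟨x, hx, rfl⟩ := hM.1.surjOn hy
      simp only [Function.comp]
      rw [i1 x (h.mp.le hx), ← eM hx]
      rfl
  · intro V _ D hD χ χ' hχ hχ' mχ mχ' eB eM y hy
    obtain ⟨x, hx, rfl⟩ := hP.1.surjOn hy
    exact h.uq V D hD (χ ∘ φ) (χ' ∘ φ) (hχ.comp hP.homOn hP.1.mapsTo)
      (hχ'.comp hP.homOn hP.1.mapsTo) (mχ.comp hP.1.mapsTo) (mχ'.comp hP.1.mapsTo)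
      (fun z hz => eB (hB.1.mapsTo hz)) (fun z hz => eM (hM.1.mapsTo hz)) hx

theorem IsPO.iso [Nonempty W] {A B M P : L.Substructure W} {A' B' M' P' : L.Substructure W'}
    (h : IsPO K A B M P) {φ : W → W'} (hA : IsoOn φ A A') (hB : IsoOn φ B B')
    (hM : IsoOn φ M M') (hP : IsoOn φ P P') : IsPO K A' B' M' P' := by
  have h1 := h.1.iso hA hB hM hP
  refine ⟨h1, le_antisymm ?_ (le_inf h1.ab.le h1.am.le)⟩
  intro y hy
  obtain ⟨hyB, hyM⟩ := hy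
  obtain ⟨b, hb, rfl⟩ := hB.1.surjOn hyB
  obtain ⟨m, hm, hbm⟩ := hM.1.surjOn hyM
  have hmb : m = b := hP.1.injOn (h.1.mp.le hm) (h.1.bp.le hb) hbm
  have hbA : b ∈ A := by
    rw [← h.2]
    exact ⟨hb, hmb ▸ hm⟩
  exact hA.1.mapsTo hbA

end Vale.Agent.P307P
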