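import Vale.Agent.P307P.Po2a

/-! Existence of pushouts, splitting. -/

open Cardinal FirstOrder Set
open FirstOrder.Language.Structure

universe u

namespace Vale.Agent.P307P

variable {L : FirstOrder.Language.{u, u}} {K : AEC L} {l θ : Cardinal.{u}}
  {W W' W'' : Type u} [L.Structure W] [L.Structure W'] [L.Structure W'']

/-- compare with the disjoint pushout given by `exists_po` through `PrePO.unique` -/
theorem PrePO.isPO (hpo : K.HasPushouts) {A B M P : L.Substructure W} (h : PrePO K A B M P)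
    (hne : (A : Set W).Nonempty) : IsPO K A B M P := by
  have : Nonempty W := ⟨hne.some⟩
  obtain ⟨W₃, _, φ₁, φ₂, A₃, B₃, M₃, a1, b1, -, m2, he, h3⟩ :=
    exists_po hpo hne h.ab h.am (isoOn_id A)
  obtain ⟨χ, -, e1, e2⟩ := h.unique h3.1 a1 b1 m2 he
  refine ⟨h, le_antisymm (fun x hx => ?_) (le_inf h.ab.le h.am.le)⟩
  have k : φ₁ x ∈ B₃ ⊓ M₃ := ⟨b1.1.mapsTo hx.1, by
    rw [e1 hx.1, ← e2 hx.2]
    exact m2.1.mapsTo hx.2⟩
  rw [h3.2] at k
  obtain ⟨a, ha, e⟩ := a1.1.surjOn k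
  rwa [← b1.1.injOn (h.ab.le ha) hx.1 e]

theorem po2_inv {χ : W → W'} {χ' : W' → W} {P X : L.Substructure W} {X' : L.Substructure W'}
    (h : IsoOn χ' ⊤ P) (hl : ∀ x ∈ P, χ' (χ x) = x) (hX : X ≤ P) (hχ : IsoOn χ X X') :
    IsoOn χ' X' X := by
  obtain ⟨Y, -, hY⟩ := h.restrict (le_top : X' ≤ ⊤)
  rwa [(isoOn_id X).unique ((hY.comp hχ).congr fun x hx => hl x (hX hx))]

/-- `exists_po` for `(B, M')` over `A` gives `W₃`; `exists_po` for `(⊤ : W₃, M)` over `M'` gives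
`W₄`; transport the first square into `W₄` (`IsPO.iso`), paste, compare with `P` by
`PrePO.unique` (from `W₄` to `W`), and transport both squares back. -/
theorem IsPO.split (hpo : K.HasPushouts) {A B M P M' : L.Substructure W} (h : IsPO K A B M P)
    (hne : (A : Set W).Nonempty) (h1 : Str K A M') (h2 : Str K M' M) :
    ∃ P' : L.Substructure W, IsPO K A B M' P' ∧ IsPO K M' P' M P := by
  have : Nonempty W := ⟨hne.some⟩
  obtain ⟨W₃, _, φ₁, φ₂, A₃, B₃, M₃, a1, b1, -, m2, he, h3⟩ :=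
    exists_po hpo hne h.1.ab h1 (isoOn_id A)
  obtain ⟨W₄, _, ψ₁, ψ₂, N₄, M₄, P₄, c1, c2, c3, c4, he', h4⟩ :=
    exists_po hpo (hne.mono h1.le) h2 h3.1.mp m2
  have : Nonempty W₃ := ⟨φ₁ hne.some⟩
  have : Nonempty W₄ := ⟨ψ₁ hne.some⟩
  obtain ⟨A₄, -, d1⟩ := c4.restrict (le_top : A₃ ≤ ⊤)
  obtain ⟨B₄, -, d2⟩ := c4.restrict (le_top : B₃ ≤ ⊤)
  have h5 := h3.iso d1 d2 c3 c4
  obtain ⟨χ, k0, e1, e2⟩ := h.1.unique (h5.paste h4.symm).1 (d1.comp a1) (d2.comp b1) c2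
    fun x hx => (congrArg ψ₂ (he hx)).trans (he' (h1.le hx)).symm
  obtain ⟨χ', k1, k2, -⟩ := k0.exists_symm
  obtain ⟨P', -, k3⟩ := k1.restrict (le_top : P₄ ≤ ⊤)
  have k4 := po2_inv k1 k2 (h2.le.trans h.1.mp.le) (c1.congr (e2.mono h2.le))
  exact ⟨P', h5.iso (po2_inv k1 k2 (h.1.ab.le.trans h.1.bp.le) ((d1.comp a1).congr
    (e1.mono h.1.ab.le))) (po2_inv k1 k2 h.1.bp.le ((d2.comp b1).congr e1)) k4 k3,
    h4.symm.iso k4 k3 (po2_inv k1 k2 h.1.mp.le (c2.congr e2)) k1⟩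

end Vale.Agent.P307P
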