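import Vale.Agent.P307P.Po1

/-! Existence of pushouts, splitting. -/

open Cardinal FirstOrder Set
open FirstOrder.Language.Structure

universe u

namespace Vale.Agent.P307P

variable {L : FirstOrder.Language.{u, u}} {K : AEC L} {l θ : Cardinal.{u}}
  {W W' W'' : Type u} [L.Structure W] [L.Structure W'] [L.Structure W'']

/-- Apply the hypothesis to `f₁ = inclusion : A ↪ B` and `f₂ = inclusion ∘ e : A ↪ M`
(`IsoOn.exists_equiv`); `W₃ = P`; `exists_isoOn_of_embedding`; `HomOn.exists_hom`,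
`homOn_of_hom` translate the universal property (extend a hom on `⊤` directly). -/
theorem exists_po (hpo : K.HasPushouts) {A B : L.Substructure W} {A' M : L.Substructure W'}
    (hne : (A : Set W).Nonempty) (hAB : Str K A B) (hAM : Str K A' M) {φ : W → W'}
    (hφ : IsoOn φ A A') :
    ∃ (W₃ : Type u) (_ : L.Structure W₃) (φ₁ : W → W₃) (φ₂ : W' → W₃)
      (A₃ B₃ M₃ : L.Substructure W₃), IsoOn φ₁ A A₃ ∧ IsoOn φ₁ B B₃ ∧ IsoOn φ₂ A' A₃ ∧
      IsoOn φ₂ M M₃ ∧ EqOn φ₁ (φ₂ ∘ φ) A ∧ IsPO K A₃ B₃ M₃ ⊤ := by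
  obtain ⟨e, he⟩ := hφ.exists_equiv
  have r1 : (Language.Substructure.inclusion hAB.1).toHom.range = A.comap B.subtype.toHom := by
    ext x
    constructor
    · rintro ⟨a, rfl⟩
      exact a.2
    · intro hx
      exact ⟨⟨x.1, hx⟩, rfl⟩
  have r2 : ((Language.Substructure.inclusion hAM.1).comp e.toEmbedding).toHom.range =
      A'.comap M.subtype.toHom := by
    ext x
    constructor
    · rintro ⟨a, rfl⟩
      exact (e a).2
    · intro hx
      refine ⟨e.symm ⟨x.1, hx⟩, Subtype.ext ?_⟩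
      exact congrArg (fun z : A' => (z : W')) (e.apply_symm_apply ⟨x.1, hx⟩)
  obtain ⟨P, _, g₁, g₂, s1, s2, hc, hd, hu⟩ := hpo A B M (Language.Substructure.inclusion hAB.1)
    ((Language.Substructure.inclusion hAM.1).comp e.toEmbedding) (by rw [r1]; exact hAB.2)
    (by rw [r2]; exact hAM.2)
  obtain ⟨a0, ha0⟩ := hne
  have : Nonempty P := ⟨g₁ ⟨a0, hAB.1 ha0⟩⟩
  obtain ⟨φ₁, i1, e1⟩ := exists_isoOn_of_embedding g₁
  obtain ⟨φ₂, i2, e2⟩ := exists_isoOn_of_embedding g₂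
  obtain ⟨A₃, hA3, j1⟩ := i1.restrict hAB.1
  have hq : EqOn φ₁ (φ₂ ∘ φ) A := by
    intro x hx
    have h1 := e1 ⟨x, hAB.1 hx⟩
    have h2 := e2 ⟨(e ⟨x, hx⟩ : W'), hAM.1 (e ⟨x, hx⟩).2⟩
    have h3 := hc ⟨x, hx⟩
    have h4 : ((e ⟨x, hx⟩ : A') : W') = φ x := he ⟨x, hx⟩
    show φ₁ x = φ₂ (φ x)
    rw [← h4]
    exact h1.trans (h3.trans h2.symm)
  obtain ⟨A₄, hA4, j2⟩ := i2.restrict hAM.1
  obtain rfl : A₃ = A₄ := j1.unique ((j2.comp hφ).congr hq.symm)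
  refine ⟨P, inferInstance, φ₁, φ₂, A₃, _, _, j1, i1, j2, i2, hq,
    ⟨i1.str j1 hAB, i2.str j2 hAM, (str_top_iff _).2 s1, (str_top_iff _).2 s2, ?_, ?_⟩, ?_⟩
  · intro W₄ _ D hD α β hα hβ mα mβ hαβ
    obtain ⟨h₁, k₁⟩ := (hα.comp i1.homOn i1.1.mapsTo).exists_hom (mα.comp i1.1.mapsTo)
    obtain ⟨h₂, k₂⟩ := (hβ.comp i2.homOn i2.1.mapsTo).exists_hom (mβ.comp i2.1.mapsTo)
    obtain ⟨h, ⟨p1, p2⟩, -⟩ := hu D hD h₁ h₂ fun x => by
      refine Subtype.ext ?_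
      rw [k₁, k₂]
      show α (φ₁ x) = β (φ₂ (e x : W'))
      rw [he x, ← show φ₁ x = φ₂ (φ x) from hq x.2]
      exact hαβ (j1.1.mapsTo x.2)
    refine ⟨fun z => h z, homOn_of_hom ((D.subtype.toHom.comp h).comp
      (Language.Substructure.subtype ⊤).toHom) fun _ => rfl, fun z _ => (h z).2, ?_, ?_⟩
    · rintro _ ⟨y, rfl⟩
      show α (g₁ y) = h (g₁ y)
      rw [p1, k₁, ← e1]
      rfl
    · rintro _ ⟨y, rfl⟩
      show β (g₂ y) = h (g₂ y)
      rw [p2, k₂, ← e2]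
      rfl
  · intro W₄ _ D hD χ χ' h1 h2 m1 m2 q1 q2
    obtain ⟨a, ha⟩ := h1.exists_hom m1
    obtain ⟨b, hb⟩ := h2.exists_hom m2
    let t : P →[L] (⊤ : L.Substructure P) := Language.Substructure.topEquiv.symm.toHom
    have ht : ∀ z, (t z : P) = z := fun _ => rfl
    obtain ⟨h, -, hh⟩ := hu D hD ((a.comp t).comp g₁.toHom) ((a.comp t).comp g₂.toHom) fun x =>
      congrArg (a.comp t) (hc x)
    have hab : a.comp t = b.comp t := by
      rw [hh (a.comp t) ⟨fun _ => rfl, fun _ => rfl⟩, hh (b.comp t) ⟨fun y => ?_, fun y => ?_⟩]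
      · refine Subtype.ext ((hb _).trans (Eq.trans ?_ (ha _).symm))
        exact (q1 ⟨y, rfl⟩).symm
      · refine Subtype.ext ((hb _).trans (Eq.trans ?_ (ha _).symm))
        exact (q2 ⟨y, rfl⟩).symm
    intro z _
    have := congrArg (fun f : P →[L] D => (f z : W₄)) hab
    exact (ha (t z)).symm.trans (this.trans (hb (t z)))
  · refine le_antisymm ?_ (le_inf hA3 hA4)
    rintro _ ⟨⟨y, rfl⟩, z, hz⟩
    obtain ⟨x, rfl⟩ := hd y z hz.symm
    have := j1.1.mapsTo x.2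
    rwa [show φ₁ x = _ from e1 ⟨x, hAB.1 x.2⟩] at this

end Vale.Agent.P307P
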