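import Vale.Agent.P307P.Sat0

/-! Models in a categoricity cardinal have the extension property below it.
Take `k' > k` with `Categorical k'`, a monster for `θ = k'`. `exists_sat`: `rec_family` along
`(succ n).ord.ToType` on substructures (`Good U := Str K U ⊤ ∧ #U = k`, `Le := (· ≤ ·)`,
`size := fun _ => 0`, `m = k`, `μ = succ k`, `Rel _ U U' := ∀ c, ∃ u ∈ U', Eqv U u c`, step from
`Ctx.stable` and `exists_str_card`), `V = ⨆ F i`; a small `D ≤ V` lies in some `F i ≤ B j`.
`Ctx.univ`: `univIn_of_inner`, `cover_rec` from `id` on `A` with `t = B`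
(step: `exists_inv_ext`, `cover_step`), `inner_of_cover`; then `UnivIn.iso`. -/

open Cardinal FirstOrder Set
open FirstOrder.Language.Structure

universe u

namespace Vale.Agent.P307P

variable {L : FirstOrder.Language.{u, u}} {K : AEC L} {l θ : Cardinal.{u}}
  {W W' W'' : Type u} [L.Structure W] [L.Structure W'] [L.Structure W'']

theorem Ctx.univ (h : Ctx K l) {n k : Cardinal.{u}} (hn : l ≤ n) (hnk : n < k)
    (hk : K.Categorical k) {N : L.Substructure W} (hN : K.Mem N) (hc : #N = k) :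
    UnivIn K N n := by
  obtain ⟨k', hk1, hk'⟩ := h.unb (Order.succ k)
  have hkk : k < k' := Order.succ_le_iff.1 hk1
  have hnθ : n ≤ k' := (hnk.trans hkk).le
  obtain ⟨W₀, _, hm⟩ := h.exists_mon (θ := k') (hn.trans hnθ)
  obtain ⟨V, hV, hVc, hsat⟩ := h.exists_sat hm hn hnk hkk hk' le_rfl
  have := hm.nonempty
  have hU : UnivIn K V n := by
    refine hm.univIn_of_inner hnθ hV fun A B hA hB hAB hBc => ?_
    have hAc : #A ≤ n := (Cardinal.mk_le_mk_of_subset (s := (A : Set W₀)) hAB).trans hBc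
    obtain ⟨ψ, D₁, D₁', h1, h2, h3, -, h5, h6, h7⟩ := cover_rec (h.ls.inf.trans hn) (isoOn_id A)
      hA (hA.trans hV) hAc (B : Set W₀) hBc fun φ D D' hφ hD hD' hDc _ _ b _ => by
        obtain ⟨g, E, E', a1, a2, a3, a4, a5, a6, a7⟩ :=
          hm.exists_inv_ext hφ (hD.trans hV) hD' (hDc.trans hnθ) b
        obtain ⟨u, hu, e⟩ := hsat D hD.le hDc (g b)
        exact hm.cover_step hn hnθ hV hφ hD hDc a1 a2 a3 a4 a5 a7 a6 hu e
    exact inner_of_cover h1 h2 h3 hB h5 h6 h7
  have hne : Nonempty N :=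
    Cardinal.mk_ne_zero_iff.1 (hc ▸ ne_of_gt (lt_of_le_of_lt zero_le hnk))
  have : Nonempty W := hne.map Subtype.val
  obtain ⟨φ, hφ⟩ := exists_isoOn_of_cat hk hV.mem_left hN hVc hc
  exact hU.iso hφ

end Vale.Agent.P307P
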