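import Vale.Agent.P307P.Stab
import Vale.Agent.P307P.Cover

/-! Models in a categoricity cardinal have the extension property below it.
Take `k' > k` with `Categorical k'`, a monster for `θ = k'`. `exists_sat`: `rec_family` along
`(succ n).ord.ToType` on substructures (`Good U := Str K U ⊤ ∧ #U = k`, `Le := (· ≤ ·)`,
`size := fun _ => 0`, `m = k`, `μ = succ k`, `Rel _ U U' := ∀ c, ∃ u ∈ U', Eqv U u c`, step from
`Ctx.stable` and `exists_str_card`), `V = ⨆ F i`; a small `D ≤ V` lies in some `F i ≤ B j`.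
`Ctx.univ`: `univIn_of_inner`, `cover_rec` from `id` on `A` with `t = B`
(step: `exists_inv_ext`, `cover_step`), `inner_of_cover`; then `UnivIn.iso`. -/

open Cardinal FirstOrder Set
open FirstOrder.Language.Structure

universe u

namespace Vale.Agent.P307P

variable {L : FirstOrder.Language.{u, u}} {K : AEC L} {l θ : Cardinal.{u}}
  {W W' W'' : Type u} [L.Structure W] [L.Structure W'] [L.Structure W'']

theorem Ctx.exists_sat (h : Ctx K l) (hm : Mon K l θ W) {n k k' : Cardinal.{u}} (hn : l ≤ n)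
    (hnk : n < k) (hkk : k < k') (hk' : K.Categorical k') (hθ : k' ≤ θ) :
    ∃ V : L.Substructure W, Str K V ⊤ ∧ #V = k ∧
      ∀ D : L.Substructure W, D ≤ V → #D ≤ n → ∀ c, ∃ u ∈ V, Eqv K θ D u c := by
  have n0 : ℵ₀ ≤ n := h.ls.inf.trans hn
  have k0 : ℵ₀ ≤ k := n0.trans hnk.le
  have hk : l ≤ k := hn.trans hnk.le
  have big : k ≤ #(⊤ : L.Substructure W) := by
    rw [show #(⊤ : L.Substructure W) = #W from mk_congr (Equiv.Set.univ W)]
    exact ((hkk.le.trans hθ).trans hm.big.le)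
  have un : ∀ (κ : Type u) [LinearOrder κ] [WellFoundedLT κ] [Nonempty κ]
      (F : κ → L.Substructure W), #κ ≤ k → Monotone F → (∀ i, Str K (F i) ⊤ ∧ #(F i) = k) →
      Str K (⨆ i, F i) ⊤ ∧ #(⨆ i, F i : L.Substructure W) = k := fun κ _ _ _ F h1 h2 h3 =>
    ⟨str_chain_smooth F h2 fun i => (h3 i).1, le_antisymm
      (card_iSup_le F h2 k0 h1 fun i => (h3 i).2.le)
      ((h3 (Classical.arbitrary κ)).2.ge.trans (card_mono (le_iSup F _)))⟩
  obtain ⟨a0, a1, -, a2⟩ := exists_str_card h.ls hk hm.top big ∅ (empty_subset _) (by simp)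
  obtain ⟨F, B, f1, f2⟩ := rec_family (ι := (Order.succ n).ord.ToType)
    (fun U : L.Substructure W => Str K U ⊤ ∧ #U = k) (· ≤ ·) (fun _ => 0)
    (fun _ U U' => ∀ c, ∃ u ∈ U', Eqv K θ U u c) a0 k0 (Order.lt_succ k)
    (fun i => (mk_Iio_toType_ord_lt i).trans_le (Order.succ_le_succ hnk.le)) ⟨a1, a2⟩ zero_le
    (fun _ _ => le_rfl) (fun _ _ _ => le_trans) (fun _ U _ _ _ hU _ _ => by
      obtain ⟨t, t1, t2⟩ := h.stable hm hk hkk hk' hθ hU.1 hU.2.le
      obtain ⟨A, b1, b2, b3⟩ := exists_str_card h.ls hk hm.top big ((U : Set W) ∪ t)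
        (fun _ _ => trivial) (card_union_le k0 hU.2.le t1)
      exact ⟨A, ⟨b1, b3⟩, fun x hx => b2 (.inl hx), fun c =>
        (t2 c).imp fun u hu => ⟨b2 (.inr hu.1), hu.2⟩, zero_le⟩)
    fun κ _ _ _ F c _ c1 c2 c3 c4 => ⟨⨆ i, F i, un κ F (c2.trans (Order.lt_succ_iff.1 c1)) c4
      fun i => (c3 i).1, zero_le, le_iSup F⟩
  have s0 : ℵ₀ ≤ Order.succ n := n0.trans (Order.le_succ n)
  have := nonempty_ord_toType s0
  obtain ⟨v1, v2⟩ := un _ F (by rw [mk_ord_toType]; exact Order.succ_le_of_lt hnk) f1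
    fun i => (f2 i).1
  refine ⟨⨆ i, F i, v1, v2, fun D hD hDn c => ?_⟩
  obtain ⟨i, hi⟩ := subset_member n0 (fun i => (F i : Set W)) (fun i j hij => f1 i j hij) D hDn
    fun x hx => mem_iUnion.2 ((mem_iSup_mono F f1 x).1 (hD hx))
  obtain ⟨j, hj⟩ := exists_gt_toType s0 i
  obtain ⟨u, u1, u2⟩ := (f2 j).2.2.2.2.2.1 c
  exact ⟨u, le_iSup F j u1, u2.mono fun x hx => (f2 j).2.2.2.1 i hj (hi hx)⟩

end Vale.Agent.P307P
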