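import Vale.Agent.P307P.Pm
import Vale.Agent.P307P.Emb
import Vale.Agent.P307P.Rec

/-! Solving all extension problems over a model. Let `θ = 2 ^ n`. Problems are indexed by the type
`T` of tuples `(B : PM L n.out, A : L.Substructure V, a : A ↪[L] B.s)`; `#T ≤ θ` (`card_problems`).
Copy `V` to `M₀ : PM L Ω` with `#Ω = Order.succ θ`; `rec_tasks` on `PM L Ω` with
`Good M := K.Mem M.s ∧ #M.s ≤ θ`, `Le := PM.Le K`, `Done (B, A, a) M :=` if the problem is
strong on both sides then it has a solution `g : B.s ↪ M.s` with `(g (a x) : Ω) = e x`;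
step: `amalg` and `PM.exists_rename` (the complement of a set of size `≤ θ` has size `succ θ`);
chain: `PM.exists_union`. An arbitrary problem is isomorphic to one in `T` by `PM.exists_copy`. -/

open Cardinal FirstOrder Set
open FirstOrder.Language.Structure

universe u

namespace Vale.Agent.P307P

variable {L : FirstOrder.Language.{u, u}} {K : AEC L} {l θ : Cardinal.{u}}
  {W W' W'' : Type u} [L.Structure W] [L.Structure W'] [L.Structure W'']

theorem solve0_sig {ι : Type u} {f : ι → Type u} {c : Cardinal.{u}} (hc : ℵ₀ ≤ c) (h1 : #ι ≤ c)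
    (h2 : ∀ i, #(f i) ≤ c) : #(Σ i, f i) ≤ c := by
  rw [mk_sigma]
  refine (sum_le_sum _ (fun _ => c) h2).trans ?_
  rw [sum_const']
  exact (mul_le_mul_left h1 c).trans_eq (mul_eq_self hc)

theorem solve0_pw {n a b : Cardinal.{u}} (hn : ℵ₀ ≤ n) (ha : a ≤ 2 ^ n) (hb : b ≤ n) :
    a ^ b ≤ 2 ^ n :=
  (power_le_power_right ha).trans ((power_le_power_left (power_ne_zero _ two_ne_zero) hb).trans_eq
    (by rw [← power_mul, mul_eq_self hn]))

theorem solve0_str {n : Cardinal.{u}} (hn : L.card + ℵ₀ ≤ n) (S : Type u) (hS : #S ≤ n) :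
    #(L.Structure S) ≤ 2 ^ n := by
  have h0 : ℵ₀ ≤ n := le_add_self.trans hn
  have h1 : L.card ≤ n := le_self_add.trans hn
  have t : ∀ k : ℕ, #(Fin k → S) ≤ n := fun k => by
    simpa using (power_le_power_right hS).trans (power_nat_le (n := k) h0)
  have a : #(Σ f : (Σ k, L.Functions k), Fin f.1 → S) ≤ n :=
    solve0_sig h0 ((mk_le_of_injective Sum.inl_injective).trans h1) fun _ => t _
  have b : #(Σ r : (Σ k, L.Relations k), Fin r.1 → S) ≤ n :=
    solve0_sig h0 ((mk_le_of_injective Sum.inr_injective).trans h1) fun _ => t _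
  refine (mk_le_of_injective (f := fun M : L.Structure S =>
    ((fun x : (Σ f : (Σ k, L.Functions k), Fin f.1 → S) => M.funMap x.1.2 x.2),
      {x : (Σ r : (Σ k, L.Relations k), Fin r.1 → S) | M.RelMap x.1.2 x.2})) ?_).trans ?_
  · intro M N h
    obtain ⟨h1, h2⟩ := Prod.ext_iff.1 h
    ext k f x
    · exact congrFun h1 ⟨⟨k, f⟩, x⟩
    · exact Set.ext_iff.1 h2 ⟨⟨k, f⟩, x⟩
  · rw [mk_prod, lift_id, lift_id, ← power_def, mk_set]
    exact (mul_le_mul' (solve0_pw h0 (hS.trans (cantor n).le) a)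
      (power_le_power_left two_ne_zero b)).trans_eq (mul_eq_self (h0.trans (cantor n).le))

/-- structures on a subset `s` of `n.out`: at most `2 ^ n` (functions and relations are maps from
types of size `≤ n` to types of size `≤ 2 ^ n`); pairs `(A, a)` are determined by their graph. -/
theorem card_problems {n : Cardinal.{u}} (hn : L.card + ℵ₀ ≤ n) (V : Type u) [L.Structure V]
    (hV : #V ≤ 2 ^ n) :
    #(Σ (B : PM L n.out) (A : L.Substructure V), A ↪[L] B.s) ≤ 2 ^ n := by
  have h0 : ℵ₀ ≤ n := le_add_self.trans hn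
  have h1 := h0.trans (cantor n).le
  have hs : ∀ s : Set n.out, #s ≤ n := fun s => (mk_set_le s).trans_eq (mk_out n)
  refine solve0_sig h1 ((mk_le_of_injective (f := fun B : PM L n.out =>
    (⟨B.s, B.str⟩ : Σ s : Set n.out, L.Structure s)) ?_).trans
    (solve0_sig h1 (by rw [mk_set, mk_out]) fun s => solve0_str hn s (hs s))) fun B => ?_
  · rintro ⟨s, M⟩ ⟨t, N⟩ h
    cases h
    rfl
  refine (mk_le_of_injective (β := {t : Set (V × B.s) // #t ≤ n}) (f := fun p =>
    ⟨range fun x : p.1 => ((x : V), p.2 x), mk_range_le.trans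
      ((mk_le_of_injective p.2.injective).trans (hs _))⟩) ?_).trans
    ((mk_bounded_set_le _ n).trans (solve0_pw h0 (max_le ?_ h1) le_rfl))
  · rintro ⟨A, a⟩ ⟨A', a'⟩ h
    have k := Set.ext_iff.1 (congrArg Subtype.val h)
    obtain rfl : A = A' := SetLike.ext fun v => ⟨fun hv => by
      obtain ⟨y, hy⟩ := (k _).1 ⟨⟨v, hv⟩, rfl⟩
      exact (show (y : V) = v from congrArg Prod.fst hy) ▸ y.2, fun hv => by
      obtain ⟨y, hy⟩ := (k _).2 ⟨⟨v, hv⟩, rfl⟩
      exact (show (y : V) = v from congrArg Prod.fst hy) ▸ y.2⟩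
    obtain rfl : a = a' := by
      ext1 x
      obtain ⟨y, hy⟩ := (k _).1 ⟨x, rfl⟩
      obtain rfl : y = x := Subtype.ext (congrArg Prod.fst hy)
      exact (congrArg Prod.snd hy).symm
    rfl
  · rw [mk_prod, lift_id, lift_id]
    exact (mul_le_mul' hV ((hs _).trans (cantor n).le)).trans_eq (mul_eq_self h1)

end Vale.Agent.P307P
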