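import Vale.Agent.P307P.Stab0

/-! Stability. -/

open Cardinal FirstOrder Set
open FirstOrder.Language.Structure

universe u

namespace Vale.Agent.P307P

variable {L : FirstOrder.Language.{u, u}} {K : AEC L} {l θ : Cardinal.{u}}
  {W W' W'' : Type u} [L.Structure W] [L.Structure W'] [L.Structure W'']

theorem Ctx.stable (h : Ctx K l) (hm : Mon K l θ W) {k k' : Cardinal.{u}} (hk : l ≤ k)
    (hkk : k < k') (hk' : K.Categorical k') (hθ : k' ≤ θ) {U : L.Substructure W}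
    (hU : Str K U ⊤) (hc : #U ≤ k) : ∃ t : Set W, #t ≤ k ∧ ∀ c, ∃ u ∈ t, Eqv K θ U u c := by
  let r : Setoid W := ⟨Eqv K θ U, hm.eqv_refl (hc.trans (hkk.le.trans hθ)), hm.eqv_symm,
    hm.eqv_trans⟩
  refine ⟨range (Quotient.out (s := r)), ?_, fun c => ⟨_, ⟨_, rfl⟩, Quotient.mk_out (s := r) c⟩⟩
  by_contra hlt
  obtain ⟨s, hs, hsc⟩ := le_mk_iff_exists_subset.1 (Order.succ_le_of_lt (not_le.1 hlt))
  have hk0 : ℵ₀ ≤ k := h.ls.inf.trans hk
  have hk1 : ℵ₀ ≤ k' := hk0.trans hkk.le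
  have hlk : l ≤ k' := hk.trans hkk.le
  have h1 : k' ≤ #(⊤ : L.Substructure W) := by
    rw [mk_congr (Language.Substructure.topEquiv (L := L) (M := W)).toEquiv]
    exact hθ.trans hm.big.le
  obtain ⟨U', hU', hsub, hcU⟩ := exists_str_card hm.ls hlk hm.top h1 (U ∪ s) (fun _ _ => trivial)
    ((mk_union_le _ _).trans (add_le_of_le hk1 (hc.trans hkk.le)
      (hsc.le.trans (Order.succ_le_of_lt hkk))))
  obtain ⟨W₁, _, F, hF⟩ := h.exists_freeFam k'.out
  have : Nonempty W₁ := hF.ne.to_type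
  have : Nonempty W := hm.nonempty
  have h2 : #(univ : Set k'.out) = k' := by rw [mk_univ, mk_out]
  obtain ⟨φ, hφ⟩ := exists_isoOn_of_cat hk' hU'.mem_left (hF.str univ univ le_rfl).mem_left hcU
    ((hF.card_eq univ (h2.symm ▸ hlk)).trans h2)
  have hUU : (U : Set W) ⊆ U' := subset_union_left.trans hsub
  have hsU : s ⊆ U' := subset_union_right.trans hsub
  obtain ⟨I, hI, hIU⟩ := hF.exists_supp (φ '' U) (hφ.1.mapsTo.mono_left hUU).image_subset hk0
    (mk_image_le.trans hc)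
  obtain ⟨J, hJ, hσ⟩ := stab_move hF I (by rw [mk_out]; exact hI.trans_lt hkk) (by rwa [mk_out])
  choose! σ s1 s2 s3 using hσ
  have h3 : #(F (I ∪ J)) ≤ k :=
    (hF.card_le _).trans (max_le ((mk_union_le _ _).trans (add_le_of_le hk0 hI (hJ.trans hk0))) hk)
  have h4 : Function.Injective fun c : s =>
      (⟨σ (φ c) (φ c), s3 _ (hφ.1.mapsTo (hsU c.2))⟩ : F (I ∪ J)) := fun c c' e => by
    have e' : σ (φ c) (φ c) = σ (φ c') (φ c') := congrArg Subtype.val e
    have m1 := hφ.1.mapsTo (hsU c.2)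
    have m2 := hφ.1.mapsTo (hsU c'.2)
    obtain ⟨ψ, p1, p2, -⟩ := hφ.exists_symm
    obtain ⟨τ, t1, t2, -⟩ := (s1 _ m2).exists_symm
    have h5 : Eqv K θ U c c' := by
      refine ⟨_, U', U', hU', hU', hcU.le.trans hθ, hUU,
        p1.comp (t1.comp ((s1 _ m1).comp hφ)), fun x hx => ?_, hsU c.2, ?_⟩
      · have a1 := hIU ⟨x, hx, rfl⟩
        have a2 : σ (φ c) (φ x) = σ (φ c') (φ x) := (s2 _ m1 a1).trans (s2 _ m2 a1).symm
        simp only [Function.comp, a2, t2 _ (hφ.1.mapsTo (hUU hx)), p2 _ (hUU hx), id]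
      · simp only [Function.comp, e', t2 _ m2, p2 _ (hsU c'.2)]
    obtain ⟨q, hq⟩ := hs c.2
    obtain ⟨q', hq'⟩ := hs c'.2
    rw [← hq, ← hq'] at h5
    exact Subtype.ext (by rw [← hq, ← hq', (Quotient.out_equiv_out (s := r) (x := q) (y := q')).1 h5])
  exact absurd ((mk_le_of_injective h4).trans h3) (by rw [hsc]; exact not_le.2 (Order.lt_succ k))

end Vale.Agent.P307P
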