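import Vale.Agent.P307P.Wide2

/-! Stability. Suppose not. Pairwise inequivalent elements: by Zorn or by choosing representatives
of the classes of the equivalence relation `Eqv K θ U` (`eqv_refl`, `eqv_symm`, `eqv_trans`) there
is a set `s` of `succ k` pairwise inequivalent elements. Take `U' ≤_K ⊤` of size exactly `k'`
containing `U ∪ s` (`exists_str_card`), a free family on `X = k'.out`, and `φ : U' ≃ F univ`
(`exists_isoOn_of_cat`). `stab_move` gives `I, J`; `F (I ∪ J)` has size `≤ k`, so two elements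
`c ≠ c'` of `s` have `σ (φ c) = σ' (φ c')`; `φ⁻¹ ∘ σ'⁻¹ ∘ σ ∘ φ` witnesses `Eqv U c c'`. -/

open Cardinal FirstOrder Set
open FirstOrder.Language.Structure

universe u

namespace Vale.Agent.P307P

variable {L : FirstOrder.Language.{u, u}} {K : AEC L} {l θ : Cardinal.{u}}
  {W W' W'' : Type u} [L.Structure W] [L.Structure W'] [L.Structure W'']

theorem FreeFam.exists_supp {X : Type u} {F : Set X → L.Substructure W} (hF : FreeFam K l F)
    (s : Set W) (hs : s ⊆ F univ) {n : Cardinal.{u}} (hn : ℵ₀ ≤ n) (hc : #s ≤ n) :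
    ∃ I : Set X, #I ≤ n ∧ s ⊆ F I := by
  choose J _ h2 h3 using fun c : s => hF.fin univ c (hs c.2)
  refine ⟨⋃ c, J c, ?_, fun c hc' => (hF.str _ _ (subset_iUnion J ⟨c, hc'⟩)).1 (h3 ⟨c, hc'⟩)⟩
  refine (Cardinal.mk_iUnion_le J).trans ?_
  have h4 : ⨆ c, #(J c) ≤ n := ciSup_le' fun c => (h2 c).lt_aleph0.le.trans hn
  exact (mul_le_mul' hc h4).trans (Cardinal.mul_eq_self hn).le

theorem FreeFam.card_eq {X : Type u} {F : Set X → L.Substructure W} (hF : FreeFam K l F)
    (I : Set X) (hI : l ≤ #I) : #(F I) = #I :=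
  le_antisymm ((hF.card_le I).trans (max_le le_rfl hI)) (hF.card_ge I)

theorem stab0_perm {X : Type u} {I J S : Set X} (hJ : J.Infinite) (hIJ : ∀ x ∈ J, x ∉ I)
    (hS : S.Finite) : ∃ σ : Equiv.Perm X, (∀ x ∈ I, σ x = x) ∧ ∀ x ∈ S, σ x ∈ I ∪ J := by
  classical
  induction S, hS using Set.Finite.induction_on with
  | empty => exact ⟨1, fun _ _ => rfl, fun _ h => h.elim⟩
  | @insert a S _ hS ih =>
    obtain ⟨σ, h1, h2⟩ := ih
    by_cases ha : σ a ∈ I ∪ J
    · exact ⟨σ, h1, fun x hx => hx.elim (fun e => e ▸ ha) (h2 x)⟩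
    obtain ⟨j, hj, hj'⟩ := hJ.exists_notMem_finite (hS.image σ)
    refine ⟨Equiv.swap (σ a) j * σ, fun x hx => ?_, fun x hx => ?_⟩
    · rw [Equiv.Perm.mul_apply, h1 x hx, Equiv.swap_apply_of_ne_of_ne]
      · exact fun e => ha (e ▸ Or.inl hx)
      · exact fun e => hIJ j hj (e ▸ hx)
    · rw [Equiv.Perm.mul_apply]
      rcases hx with rfl | hx
      · rw [Equiv.swap_apply_left]
        exact Or.inr hj
      · rw [Equiv.swap_apply_of_ne_of_ne]
        · exact h2 x hx
        · exact fun e => ha (e ▸ h2 x hx)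
        · exact fun e => hj' ⟨x, hx, e⟩


/-- `J` an infinite countable subset of the complement of `I`; a finite set `S` is moved into
`I ∪ J` by a permutation fixing `I` pointwise (extend an injection `S \ I → J`, for example with
`Equiv.Perm.extendSubtype`, or by induction with swaps). -/
theorem stab_move {X : Type u} {F : Set X → L.Substructure W} (hF : FreeFam K l F) (I : Set X)
    (hI : #I < #X) (hX : ℵ₀ ≤ #X) :
    ∃ J : Set X, #J ≤ ℵ₀ ∧ ∀ c ∈ F univ, ∃ σ : W → W, IsoOn σ (F univ) (F univ) ∧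
      EqOn σ id (F I) ∧ σ c ∈ F (I ∪ J) := by
  have : Infinite X := Cardinal.infinite_iff.2 hX
  have h1 : (Iᶜ).Infinite := by
    rw [← Set.infinite_coe_iff, Cardinal.infinite_iff, Cardinal.mk_compl_of_infinite I hI]
    exact hX
  let e : ℕ → X := fun k => (h1.natEmbedding _ k : X)
  have he : Function.Injective e := Subtype.val_injective.comp (h1.natEmbedding _).injective
  refine ⟨range e, (countable_range e).le_aleph0, fun c hc => ?_⟩
  obtain ⟨S, -, hS, hcS⟩ := hF.fin univ c hc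
  obtain ⟨σ, s1, s2⟩ := stab0_perm (I := I) (infinite_range_of_injective he)
    (by rintro _ ⟨k, rfl⟩; exact (h1.natEmbedding _ k).2) hS
  obtain ⟨φ, p1, p2, p3⟩ := hF.perm σ
  refine ⟨φ, p1, p3 I s1, (hF.str _ _ ?_).1 (p2 S hcS)⟩
  rintro _ ⟨x, hx, rfl⟩
  exact s2 x hx

end Vale.Agent.P307P
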