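import Vale.Agent.P307P.Base

/-! Transport along an isomorphism of vocabularies. `K'.Mem M := @K.Mem M (e.toLHom.reduct M)`,
`K'.Strong N A := @K.Strong N (reduct) (the same subset, `LHom.substructureReduct`)`. Since `e` is
invertible, `L`-structures, substructures, homomorphisms, embeddings and isomorphisms correspond
to the `L'`-ones on the same types: the reduct along `e.invLHom` followed by the reduct along
`e.toLHom` gives the structure back (`Language.Structure.ext`, `e.left_inv`, `e.right_inv`). -/

open Cardinal FirstOrder Set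
open FirstOrder.Language.Structure

universe u

namespace Vale.Agent.P307P

variable {L : FirstOrder.Language.{u, u}} {K : AEC L} {l θ : Cardinal.{u}}
  {W W' W'' : Type u} [L.Structure W] [L.Structure W'] [L.Structure W'']

/-- the vocabulary whose symbols are given subsets of `Λ` -/
def subLang {Λ : Type u} (S : (ℕ → Set Λ) × (ℕ → Set Λ)) : FirstOrder.Language.{u, u} :=
  ⟨fun n => S.1 n, fun n => S.2 n⟩

/-- `#(L.Functions n) ≤ L.card ≤ l` (`Language.card_eq_card_functions_add_card_relations`, or an
injection into `L.Symbols`); `Equiv.ofInjective` -/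
theorem exists_subLang (L : FirstOrder.Language.{u, u}) {l : Cardinal.{u}} (h : L.card ≤ l) :
    ∃ S : (ℕ → Set l.out) × (ℕ → Set l.out), Nonempty (L ≃ᴸ subLang S) := by
  have hs : #L.Symbols ≤ #l.out := by rw [Cardinal.mk_out]; exact h
  obtain ⟨j⟩ := Cardinal.le_def _ _ |>.1 hs
  let a : ∀ n, L.Functions n → l.out := fun n f => j (Sum.inl ⟨n, f⟩)
  let b : ∀ n, L.Relations n → l.out := fun n r => j (Sum.inr ⟨n, r⟩)
  have ha : ∀ n, Function.Injective (a n) := fun n f g hfg =>
    eq_of_heq (Sigma.mk.inj (Sum.inl.inj (j.injective hfg))).2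
  have hb : ∀ n, Function.Injective (b n) := fun n f g hfg =>
    eq_of_heq (Sigma.mk.inj (Sum.inr.inj (j.injective hfg))).2
  refine ⟨(fun n => range (a n), fun n => range (b n)), ⟨⟨
    ⟨fun n f => Equiv.ofInjective (a n) (ha n) f, fun n r => Equiv.ofInjective (b n) (hb n) r⟩,
    ⟨fun n f => (Equiv.ofInjective (a n) (ha n)).symm f,
      fun n r => (Equiv.ofInjective (b n) (hb n)).symm r⟩, ?_, ?_⟩⟩⟩
  · refine Language.LHom.funext ?_ ?_
    · funext n f
      exact (Equiv.ofInjective (a n) (ha n)).symm_apply_apply f
    · funext n r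
      exact (Equiv.ofInjective (b n) (hb n)).symm_apply_apply r
  · refine Language.LHom.funext ?_ ?_
    · funext n f
      exact (Equiv.ofInjective (a n) (ha n)).apply_symm_apply f
    · funext n r
      exact (Equiv.ofInjective (b n) (hb n)).apply_symm_apply r

end Vale.Agent.P307P
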