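import Vale.Agent.P307P.Lc

/-! Reflection of a pushout to small pushouts. Let `𝒟` be the set of `P'` for which data as in the
conclusion exist. `refl_data`: `Ctx.lc` for `M ≤ N` with `s ∪ A₀` gives `IsPO A B M T`; split
`IsPO M V N P` at `T` to get `IsPO M V T P₁`; paste `IsPO A B M T` with its `symm` to get
`IsPO A B V P₁`; hull `V'` of `t ∪ A` in `V`; split at `V'`. `𝒟` is nonempty and directed
(`PrePO.le` inside `P`), its members are strong in `P`, `V, N ≤ sSup 𝒟`; `dir_smooth`,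
`PrePO.le`, `mem_sSup_dir`. -/

open Cardinal FirstOrder Set
open FirstOrder.Language.Structure

universe u

namespace Vale.Agent.P307P

variable {L : FirstOrder.Language.{u, u}} {K : AEC L} {l θ : Cardinal.{u}}
  {W W' W'' : Type u} [L.Structure W] [L.Structure W'] [L.Structure W'']

theorem Ctx.refl_data (h : Ctx K l) {M V N P A₀ : L.Substructure W} (hP : IsPO K M V N P)
    (hM : K.Categorical #M) (hl : l ≤ #M) {ρ : Cardinal.{u}} (hρ : l ≤ ρ) (hA : A₀ ≤ M)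
    (hAc : #A₀ ≤ ρ) (s t : Set W) (hs : s ⊆ N) (ht : t ⊆ V) (hsc : #s ≤ ρ) (htc : #t ≤ ρ) :
    ∃ A B T V' P' : L.Substructure W, IsPO K A B M T ∧ Str K T N ∧ A₀ ≤ A ∧ Str K V' V ∧
      IsPO K A B V' P' ∧ Str K P' P ∧ #B ≤ ρ ∧ #V' ≤ ρ ∧ (A : Set W).Nonempty ∧ s ⊆ B ∧
      t ⊆ V' := by
  have hinf : ℵ₀ ≤ ρ := h.ls.inf.trans hρ
  obtain ⟨A, B, T, h1, hT, hsB, hB, hne⟩ := h.lc hP.1.am hM hl hρ (s ∪ A₀)
    (union_subset hs fun y hy => hP.1.am.le (hA hy)) (card_union_le hinf hsc hAc)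
  have hA0 : A₀ ≤ A := by
    rw [← h1.2]
    exact le_inf (fun y hy => hsB (Or.inr hy)) hA
  obtain ⟨P₁, h2, h3⟩ := hP.split h.po (hne.mono h1.1.am.le) h1.1.mp hT
  have h4 := h1.paste h2.symm
  obtain ⟨V', hV, htV, hVc⟩ := exists_str_ls h.ls hρ h4.1.am.mem_right (t ∪ A)
    (union_subset ht h4.1.am.le) (card_union_le hinf htc ((card_mono h1.1.ab.le).trans hB))
  obtain ⟨P', h5, h6⟩ := h4.split h.po hne (h4.1.am.coh hV fun y hy => htV (Or.inr hy)) hV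
  exact ⟨A, B, T, V', P', h1, hT, hA0, hV, h5, h6.1.bp.trans h3.1.bp, hB, hVc, hne,
    fun y hy => hsB (Or.inl hy), fun y hy => htV (Or.inl hy)⟩

theorem Ctx.reflect (h : Ctx K l) {M V N P A₀ : L.Substructure W} (hP : IsPO K M V N P)
    (hM : K.Categorical #M) (hl : l ≤ #M) {ρ : Cardinal.{u}} (hρ : l ≤ ρ) (hA : A₀ ≤ M)
    (hAc : #A₀ ≤ ρ) {x : W} (hx : x ∈ P) :
    ∃ A B T V' P' : L.Substructure W, IsPO K A B M T ∧ Str K T N ∧ A₀ ≤ A ∧ Str K V' V ∧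
      IsPO K A B V' P' ∧ Str K P' P ∧ #B ≤ ρ ∧ #V' ≤ ρ ∧ (A : Set W).Nonempty ∧ x ∈ P' := by
  have hinf : ℵ₀ ≤ ρ := h.ls.inf.trans hρ
  let 𝒟 : Set (L.Substructure W) := {P' | ∃ A B T V' : L.Substructure W, IsPO K A B M T ∧
    Str K T N ∧ A₀ ≤ A ∧ Str K V' V ∧ IsPO K A B V' P' ∧ Str K P' P ∧ #B ≤ ρ ∧ #V' ≤ ρ ∧
    (A : Set W).Nonempty}
  have key : ∀ s t : Set W, s ⊆ N → t ⊆ V → #s ≤ ρ → #t ≤ ρ → ∃ Q ∈ 𝒟, s ⊆ Q ∧ t ⊆ Q :=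
    fun s t hs ht hsc htc => by
      obtain ⟨A, B, T, V', Q, h1, h2, h3, h4, h5, h6, h7, h8, h9, h10, h11⟩ :=
        h.refl_data hP hM hl hρ hA hAc s t hs ht hsc htc
      exact ⟨Q, ⟨A, B, T, V', h1, h2, h3, h4, h5, h6, h7, h8, h9⟩,
        fun y hy => h5.1.bp.le (h10 hy), fun y hy => h5.1.mp.le (h11 hy)⟩
  have h0 : #(∅ : Set W) ≤ ρ := by simp
  have h1 : ∀ y : W, #({y} : Set W) ≤ ρ := fun y => by
    rw [Cardinal.mk_singleton]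
    exact Cardinal.one_le_aleph0.trans hinf
  have hs : ∀ Q ∈ 𝒟, Str K Q P := fun Q ⟨_, _, _, _, _, _, _, _, _, h6, _⟩ => h6
  have hne : 𝒟.Nonempty :=
    let ⟨Q, hQ, _⟩ := key ∅ ∅ (empty_subset _) (empty_subset _) h0 h0
    ⟨Q, hQ⟩
  have hd : DirectedOn (· ≤ ·) 𝒟 := by
    rintro Q₁ ⟨A₁, B₁, T₁, V₁, a1, a2, -, a4, a5, a6, a7, a8, -⟩
      Q₂ ⟨A₂, B₂, T₂, V₂, b1, b2, -, b4, b5, b6, b7, b8, -⟩
    obtain ⟨Q, hQ, c1, c2⟩ := key (B₁ ∪ B₂) (V₁ ∪ V₂)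
      (union_subset (a1.1.bp.le.trans a2.le) (b1.1.bp.le.trans b2.le)) (union_subset a4.le b4.le)
      (card_union_le hinf a7 b7) (card_union_le hinf a8 b8)
    have c3 := hs Q hQ
    exact ⟨Q, hQ, a5.1.le c3.mem_right c3.mem_left a6.le c3.le (fun y hy => c1 (Or.inl hy))
      fun y hy => c2 (Or.inl hy), b5.1.le c3.mem_right c3.mem_left b6.le c3.le
        (fun y hy => c1 (Or.inr hy)) fun y hy => c2 (Or.inr hy)⟩
  have hU := dir_smooth hne hd hs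
  have hPU : P ≤ sSup 𝒟 := hP.1.le hU.mem_right hU.mem_left le_rfl hU.le
    (fun y hy =>
      let ⟨Q, hQ, _, c⟩ := key ∅ {y} (empty_subset _) (singleton_subset_iff.2 hy) h0 (h1 y)
      (mem_sSup_dir hne hd y).2 ⟨Q, hQ, c rfl⟩)
    fun y hy =>
      let ⟨Q, hQ, c, _⟩ := key {y} ∅ (singleton_subset_iff.2 hy) (empty_subset _) (h1 y) h0
      (mem_sSup_dir hne hd y).2 ⟨Q, hQ, c rfl⟩
  obtain ⟨Q, ⟨A, B, T, V', c1, c2, c3, c4, c5, c6, c7, c8, c9⟩, hxQ⟩ :=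
    (mem_sSup_dir hne hd x).1 (hPU hx)
  exact ⟨A, B, T, V', Q, c1, c2, c3, c4, c5, c6, c7, c8, c9, hxQ⟩

end Vale.Agent.P307P
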