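import Vale.Agent.P307P.Po2
import Vale.Agent.P307P.Dir

/-! Formal properties of wide pushouts. -/

open Cardinal FirstOrder Set
open FirstOrder.Language.Structure

universe u

namespace Vale.Agent.P307P

variable {L : FirstOrder.Language.{u, u}} {K : AEC L} {l θ : Cardinal.{u}}
  {W W' W'' : Type u} [L.Structure W] [L.Structure W'] [L.Structure W'']

variable {X : Type u} {A : L.Substructure W} {B : X → L.Substructure W}

theorem isWide_empty (hA : K.Mem A) : IsWide K A B ∅ A := by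

  exact ⟨str_refl hA, fun _ hx => hx.elim, fun _ _ _ _ ψ _ h1 h2 _ =>
    ⟨ψ, h1, h2, fun _ _ => rfl, fun _ hx => hx.elim⟩, fun _ _ _ _ _ _ _ _ _ _ h _ => h⟩

/-- minimality, as `PrePO.le` -/
theorem IsWide.le {I : Set X} {P D N : L.Substructure W} (h : IsWide K A B I P) (hD : K.Mem D)
    (hN : K.Mem N) (hPD : P ≤ D) (hND : N ≤ D) (hA : A ≤ N) (hB : ∀ x ∈ I, B x ≤ N) :
    P ≤ N := by

  obtain ⟨χ, h1, h2, h3, h4⟩ := h.ex W N hN id (fun _ => id) (homOn_id A) (fun _ hy => hA hy)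
    fun x hx => ⟨homOn_id _, fun _ hy => hB x hx hy, fun _ _ => rfl⟩
  have h5 := h.uq W D hD id χ (homOn_id P) h1 (fun _ hy => hPD hy) (fun _ hy => hND (h2 hy)) h3 h4
  intro y hy
  have h6 := h2 hy
  rwa [← h5 hy] at h6

theorem IsWide.insert {I : Set X} {P Q : L.Substructure W} {x : X} (h : IsWide K A B I P)
    (hx : x ∉ I) (hQ : PrePO K A (B x) P Q) : IsWide K A B (insert x I) Q := by

  refine ⟨h.ap.trans hQ.mp, ?_, fun W' _ D hD ψ φ h1 h2 h3 => ?_,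
    fun W' _ D hD χ χ' h1 h2 h3 h4 h5 h6 => ?_⟩
  · rintro y (rfl | hy)
    · exact hQ.bp.le
    · exact (h.bp y hy).trans hQ.mp.le
  · obtain ⟨χ₀, a1, a2, a3, a4⟩ := h.ex W' D hD ψ φ h1 h2 fun y hy => h3 y (Or.inr hy)
    obtain ⟨b1, b2, b3⟩ := h3 x (Or.inl rfl)
    obtain ⟨χ, c1, c2, c3, c4⟩ := hQ.ex W' D hD (φ x) χ₀ b1 a1 b2 a2 (b3.symm.trans a3)
    refine ⟨χ, c1, c2, a3.trans (c4.mono h.ap.le), ?_⟩
    rintro y (rfl | hy)
    · exact c3
    · exact (a4 y hy).trans (c4.mono (h.bp y hy))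
  · exact hQ.uq W' D hD χ χ' h1 h2 h3 h4 (h6 x (Or.inl rfl))
      (h.uq W' D hD χ χ' (h1.mono hQ.mp.le) (h2.mono hQ.mp.le) (h3.mono_left hQ.mp.le)
        (h4.mono_left hQ.mp.le) h5 fun y hy => h6 y (Or.inr hy))

/-- union of a chain: the mediating maps on the `P i` are compatible by uniqueness
(`homOn_chain`); `str_chain_union` -/
theorem isWide_chain {ι : Type u} [LinearOrder ι] [WellFoundedLT ι] [Nonempty ι]
    (I : ι → Set X) (P : ι → L.Substructure W) (hI : Monotone I)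
    (h : ∀ i, IsWide K A B (I i) (P i)) (hP : ∀ i j, i ≤ j → Str K (P i) (P j)) :
    IsWide K A B (⋃ i, I i) (⨆ i, P i) := by

  have hm : Monotone P := fun i j hij => (hP i j hij).le
  have hs : ∀ {y : W}, y ∈ ⨆ i, P i ↔ ∃ i, y ∈ P i :=
    FirstOrder.Language.Substructure.mem_iSup_of_directed hm.directed_le
  obtain ⟨i₀⟩ : Nonempty ι := inferInstance
  refine ⟨(h i₀).ap.trans (str_chain_union P hP i₀), fun x hx => ?_,
    fun W' _ D hD ψ φ h1 h2 h3 => ?_, fun W' _ D hD χ χ' h1 h2 h3 h4 h5 h6 y hy => ?_⟩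
  · obtain ⟨i, hi⟩ := mem_iUnion.1 hx
    exact ((h i).bp x hi).trans (le_iSup P i)
  · choose χ a1 a2 a3 a4 using fun i =>
      (h i).ex W' D hD ψ φ h1 h2 fun y hy => h3 y (mem_iUnion.2 ⟨i, hy⟩)
    obtain ⟨χ', b1, b2⟩ := homOn_chain χ P a1 hm fun i j hij =>
      (h i).uq W' D hD _ _ (a1 i) ((a1 j).mono (hm hij)) (a2 i) ((a2 j).mono_left (hm hij))
        ((a3 i).symm.trans (a3 j)) fun y hy => (a4 i y hy).symm.trans (a4 j y (hI hij hy))
    refine ⟨χ', b1, fun y hy => ?_, (a3 i₀).trans ((b2 i₀).mono (h i₀).ap.le), fun x hx => ?_⟩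
    · obtain ⟨i, hi⟩ := hs.1 hy
      rw [← b2 i hi]
      exact a2 i hi
    · obtain ⟨i, hi⟩ := mem_iUnion.1 hx
      exact (a4 i x hi).trans ((b2 i).mono ((h i).bp x hi))
  · obtain ⟨i, hi⟩ := hs.1 hy
    have e := le_iSup P i
    exact (h i).uq W' D hD χ χ' (h1.mono e) (h2.mono e) (h3.mono_left e) (h4.mono_left e) h5
      (fun x hx => h6 x (mem_iUnion.2 ⟨i, hx⟩)) hi

/-- diagram chase: for `x ∈ I ∪ J` use `φ` if `x ∈ I` and `ψ` otherwise; `φ` and `ψ` agree on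
`P₀ ⊇ B x` for `x ∈ I ∩ J`; uniqueness on `P₁` and on `P₂` -/
theorem isWide_prePO {I J : Set X} {P₀ P₁ P₂ P : L.Substructure W}
    (hAB : ∀ x, A ≤ B x) (h₀ : IsWide K A B (I ∩ J) P₀) (h₁ : IsWide K A B I P₁)
    (h₂ : IsWide K A B J P₂) (h : IsWide K A B (I ∪ J) P) (s₀₁ : Str K P₀ P₁)
    (s₀₂ : Str K P₀ P₂) (s₁ : Str K P₁ P) (s₂ : Str K P₂ P) : PrePO K P₀ P₁ P₂ P := by

  classical
  refine ⟨s₀₁, s₀₂, s₁, s₂, fun W' _ D hD φ ψ h1 h2 h3 h4 h5 => ?_,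
    fun W' _ D hD χ χ' h1 h2 h3 h4 h5 h6 => ?_⟩
  · obtain ⟨χ, a1, a2, a3, a4⟩ := h.ex W' D hD φ (fun x => if x ∈ I then φ else ψ)
      (h1.mono h₁.ap.le) (h3.mono_left h₁.ap.le) fun x hx => by
        by_cases k : x ∈ I
        · rw [if_pos k]
          exact ⟨h1.mono (h₁.bp x k), h3.mono_left (h₁.bp x k), fun _ _ => rfl⟩
        · have k' := h₂.bp x (hx.resolve_left k)
          rw [if_neg k]
          exact ⟨h2.mono k', h4.mono_left k', h5.mono h₀.ap.le⟩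
    have b : ∀ x ∈ I, EqOn φ χ (B x) := fun x k => by
      have e := a4 x (Or.inl k)
      rwa [if_pos k] at e
    refine ⟨χ, a1, a2, h₁.uq W' D hD φ χ h1 (a1.mono s₁.le) h3 (a2.mono_left s₁.le) a3 b,
      h₂.uq W' D hD ψ χ h2 (a1.mono s₂.le) h4 (a2.mono_left s₂.le)
        ((h5.mono h₀.ap.le).symm.trans a3) fun x hx => ?_⟩
    by_cases k : x ∈ I
    · exact (h5.mono (h₀.bp x ⟨k, hx⟩)).symm.trans (b x k)
    · have e := a4 x (Or.inr hx)
      rwa [if_neg k] at e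
  · refine h.uq W' D hD χ χ' h1 h2 h3 h4 (h5.mono h₁.ap.le) ?_
    rintro x (hx | hx)
    · exact h5.mono (h₁.bp x hx)
    · exact h6.mono (h₂.bp x hx)

end Vale.Agent.P307P
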