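import Vale.Agent.P307P.Wide0

/-! Formal properties of wide pushouts. -/

open Cardinal FirstOrder Set
open FirstOrder.Language.Structure

universe u

namespace Vale.Agent.P307P

variable {L : FirstOrder.Language.{u, u}} {K : AEC L} {l θ : Cardinal.{u}}
  {W W' W'' : Type u} [L.Structure W] [L.Structure W'] [L.Structure W'']

variable {X : Type u} {A : L.Substructure W} {B : X → L.Substructure W}

theorem wide1_lim [LinearOrder X] [WellFoundedLT X] {N : L.Substructure W} (hA : Str K A N)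
    (I S T : Set X) (hT : ∀ x, x ∈ T ↔ x ∈ I ∧ ∃ j ∈ S, x ≤ j)
    (h : ∀ j ∈ S, ∃ P : L.Substructure W, IsWide K A B (I ∩ Iic j) P ∧ Str K P N) :
    ∃ P : L.Substructure W, IsWide K A B T P ∧ Str K P N := by
  rcases S.eq_empty_or_nonempty with rfl | hS
  · have e : T = ∅ := eq_empty_of_forall_notMem fun x hx => by simpa using ((hT x).1 hx).2
    exact ⟨A, e ▸ isWide_empty hA.mem_left, hA⟩
  have := hS.to_subtype
  choose P h1 h2 using fun j : S => h j j.2
  have hm : Monotone P := fun i j hij =>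
    (h1 i).le hA.mem_right (h2 j).mem_left (h2 i).le (h2 j).le (h1 j).ap.le
      fun x hx => (h1 j).bp x ⟨hx.1, le_trans hx.2 hij⟩
  have e : T = ⋃ j : S, I ∩ Iic (j : X) := by
    ext x
    rw [hT, mem_iUnion]
    exact ⟨fun ⟨hx, j, hj, hxj⟩ => ⟨⟨j, hj⟩, hx, hxj⟩, fun ⟨j, hx, hxj⟩ => ⟨hx, j, j.2, hxj⟩⟩
  refine ⟨⨆ j, P j, e ▸ isWide_chain (fun j : S => I ∩ Iic (j : X)) P
    (fun i j hij x hx => ⟨hx.1, le_trans hx.2 hij⟩) h1
    fun i j hij => (h2 i).coh (h2 j) (hm hij), str_chain_smooth P hm h2⟩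

/-- Existence along an independent sequence. By well-founded induction on `i` there is `P` with
`IsWide A B (I ∩ Iic i) P` and `Str K P (Q i)`: choose `P j` for `j < i`, they increase
(`IsWide.le` in `⊤`, `Str.coh`); their union (or `A`) is wide for `I ∩ Iio i` and strong in `U i`;
if `i ∈ I` split `hpo' i` at it (`IsPO.split`) and use `IsWide.insert`. Finally take the union
over all `i` (or `A` when `X` is empty). -/
theorem exists_isWide [LinearOrder X] [WellFoundedLT X] (hpo : K.HasPushouts)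
    (hne : (A : Set W).Nonempty) (hA : Str K A ⊤) (U Q : X → L.Substructure W)
    (hpo' : ∀ i, IsPO K A (B i) (U i) (Q i)) (hQ : ∀ i, Str K (Q i) ⊤)
    (hU : ∀ i j, j < i → Q j ≤ U i) (I : Set X) :
    ∃ P : L.Substructure W, IsWide K A B I P ∧ Str K P ⊤ := by
  have key : ∀ i, ∃ P : L.Substructure W, IsWide K A B (I ∩ Iic i) P ∧ Str K P (Q i) := by
    intro i
    induction i using WellFoundedLT.induction with
    | ind i ih =>
      obtain ⟨P, h1, h2⟩ := wide1_lim (B := B) (hpo' i).1.am I (Iio i) (I ∩ Iio i)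
        (fun x => ⟨fun hx => ⟨hx.1, x, hx.2, le_rfl⟩,
          fun ⟨hx, j, hj, hxj⟩ => ⟨hx, lt_of_le_of_lt hxj hj⟩⟩) fun j hj => by
          obtain ⟨P, h1, h2⟩ := ih j hj
          exact ⟨P, h1, (h2.trans (hQ j)).coh ((hpo' i).1.mp.trans (hQ i))
            (h2.le.trans (hU i j hj))⟩
      by_cases hi : i ∈ I
      · obtain ⟨P', h3, h4⟩ := (hpo' i).split hpo hne h1.ap h2
        have e : I ∩ Iic i = insert i (I ∩ Iio i) := by
          ext x
          refine ⟨fun hx => (eq_or_lt_of_le hx.2).imp_right fun h => ⟨hx.1, h⟩, ?_⟩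
          rintro (rfl | hx)
          · exact ⟨hi, le_rfl⟩
          · exact ⟨hx.1, le_of_lt hx.2⟩
        exact ⟨P', e ▸ h1.insert (fun h => lt_irrefl i h.2) h3.1, h4.1.bp⟩
      · have e : I ∩ Iic i = I ∩ Iio i := by
          ext x
          exact ⟨fun hx => ⟨hx.1, lt_of_le_of_ne hx.2 fun h => hi (h ▸ hx.1)⟩,
            fun hx => ⟨hx.1, le_of_lt hx.2⟩⟩
        exact ⟨P, e ▸ h1, h2.trans (hpo' i).1.mp⟩
  refine wide1_lim hA I univ I (fun x => ⟨fun hx => ⟨hx, x, mem_univ x, le_rfl⟩, fun h => h.1⟩)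
    fun j _ => ?_
  obtain ⟨P, h1, h2⟩ := key j
  exact ⟨P, h1, h2.trans (hQ j)⟩

end Vale.Agent.P307P
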