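import Vale.Agent.P307P.Wide2a

/-! The free family. In a monster for `θ = max #X l` take a nonempty hull `A` and a hull
`B₀ ∋ c`, `c ∉ A`, both of size `≤ l`. `exists_indep` gives independent copies `B x = φ x (B₀)`.
`F I` = the wide pushout from `exists_isWide`.
`str`: `IsWide.le`, `Str.coh`. `fin`: the family of `F J'`, `J' ⊆ J` finite, is directed;
`dir_smooth`, `IsWide.le`, `mem_sSup_dir`. `card_le`: hull of `A ∪ ⋃ x ∈ I, B x`, `IsWide.le`.
`card_ge`: `x ↦ φ x c` is injective (`B x ⊓ U x = A`, `B y ≤ Q y ≤ U x` for `y < x`).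
`po`: `isWide_prePO`, `PrePO.isPO`. `perm`: `wide_perm`. -/

open Cardinal FirstOrder Set
open FirstOrder.Language.Structure

universe u

namespace Vale.Agent.P307P

variable {L : FirstOrder.Language.{u, u}} {K : AEC L} {l θ : Cardinal.{u}}
  {W W' W'' : Type u} [L.Structure W] [L.Structure W'] [L.Structure W'']

theorem Ctx.exists_freeFam (h : Ctx K l) (X : Type u) :
    ∃ (W : Type u) (_ : L.Structure W) (F : Set X → L.Substructure W), FreeFam K l F := by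
  obtain ⟨W, _, hm⟩ := h.exists_mon (θ := max #X l) (le_max_right _ _)
  have hl := h.ls.inf
  have hW := hm.nonempty
  obtain ⟨w⟩ := hm.nonempty
  obtain ⟨A, hA, hwA, hAc⟩ := hm.hull le_rfl {w} ((mk_singleton w).trans_le (one_le_aleph0.trans hl))
  have hne : (A : Set W).Nonempty := ⟨w, hwA rfl⟩
  obtain ⟨c, -, hc⟩ := exists_not_mem_of_card_lt (A := A) (B := ⊤)
    (((hAc.trans hm.le).trans_lt hm.big).trans_eq (mk_univ (α := W)).symm)
  obtain ⟨B₀, hB₀, hsub, hBc⟩ := hm.hull le_rfl (insert c A)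
    (mk_insert_le.trans (add_le_of_le hl hAc (one_le_aleph0.trans hl)))
  have hAB₀ : A ≤ B₀ := fun x hx => hsub (mem_insert_of_mem _ hx)
  have hcB₀ : c ∈ B₀ := hsub (mem_insert _ _)
  obtain ⟨_, _⟩ := exists_wellFoundedLT (α := X)
  obtain ⟨φ, B, U, Q, hφ, hφA, hpo, hQ, hU⟩ := hm.exists_indep (le_max_left _ _) hne
    (hA.coh hB₀ hAB₀) hA (hBc.trans (le_max_right _ _))
  choose F hF hFs using exists_isWide h.po hne hA U Q hpo hQ hU
  have hle : ∀ (I : Set X) {N : L.Substructure W}, K.Mem N → A ≤ N → (∀ x ∈ I, B x ≤ N) →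
      F I ≤ N := fun I _ hN h1 h2 => (hF I).le hm.top hN le_top le_top h1 h2
  have hmono : ∀ I J, I ⊆ J → F I ≤ F J := fun I J hIJ =>
    hle I (hFs J).mem_left (hF J).ap.le fun x hx => (hF J).bp x (hIJ hx)
  have hstr : ∀ I J, I ⊆ J → Str K (F I) (F J) := fun I J hIJ =>
    (hFs I).coh (hFs J) (hmono I J hIJ)
  refine ⟨W, _, F, hstr, hne.mono (hF ∅).ap.le, fun J d hd => ?_, fun I => ?_, fun I => ?_,
    fun I J => ?_, fun σ => wide_perm hAB₀ hφ hφA F hF hstr σ⟩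
  · have h0 : F ∅ ∈ F '' {J' | J' ⊆ J ∧ J'.Finite} := ⟨∅, ⟨empty_subset _, finite_empty⟩, rfl⟩
    have hdir : DirectedOn (· ≤ ·) (F '' {J' | J' ⊆ J ∧ J'.Finite}) := by
      rintro _ ⟨I₁, h₁, rfl⟩ _ ⟨I₂, h₂, rfl⟩
      exact ⟨_, ⟨I₁ ∪ I₂, ⟨union_subset h₁.1 h₂.1, h₁.2.union h₂.2⟩, rfl⟩,
        hmono _ _ subset_union_left, hmono _ _ subset_union_right⟩
    have hs : Str K (sSup (F '' {J' | J' ⊆ J ∧ J'.Finite})) ⊤ := dir_smooth ⟨_, h0⟩ hdir (by
      rintro _ ⟨I, -, rfl⟩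
      exact hFs I)
    have h1 := hle J hs.mem_left ((hF ∅).ap.le.trans (le_sSup h0)) (fun x hx =>
      ((hF {x}).bp x rfl).trans
        (le_sSup ⟨{x}, ⟨singleton_subset_iff.2 hx, finite_singleton x⟩, rfl⟩)) hd
    obtain ⟨_, ⟨J', hJ', rfl⟩, h2⟩ := (mem_sSup_dir ⟨_, h0⟩ hdir d).1 h1
    exact ⟨J', hJ'.1, hJ'.2, h2⟩
  · have hn : ℵ₀ ≤ max #I l := hl.trans (le_max_right _ _)
    have h1 : #(⋃ x : I, (B x : Set W)) ≤ max #I l :=
      (mk_iUnion_le _).trans (mul_le_of_le hn (le_max_left _ _) (ciSup_le' fun x =>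
        ((hφ x).card_eq.trans_le hBc).trans (le_max_right _ _)))
    obtain ⟨N, hN, hs, hNc⟩ := hm.hull (le_max_right #I l) (A ∪ ⋃ x : I, (B x : Set W))
      (card_union_le hn (hAc.trans (le_max_right _ _)) h1)
    exact (card_mono (hle I hN.mem_left (fun y hy => hs (Or.inl hy)) fun x hx y hy =>
      hs (Or.inr (mem_iUnion.2 ⟨⟨x, hx⟩, hy⟩)))).trans hNc
  · have hcB : ∀ x, φ x c ∈ B x := fun x => (hφ x).1.mapsTo hcB₀
    have hcA : ∀ x, φ x c ∉ A := fun x hx =>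
      hc ((hφ x).1.injOn (hAB₀ hx) hcB₀ (hφA x hx) ▸ hx)
    have hlt : ∀ x y, y < x → φ x c ≠ φ y c := fun x y hyx e => hcA x (by
      rw [← (hpo x).2]
      exact ⟨hcB x, hU x y hyx ((hpo y).1.bp.le (e ▸ hcB y))⟩)
    refine mk_le_of_injective (f := fun x : I => (⟨φ x c, (hF I).bp x x.2 (hcB x)⟩ : F I))
      fun x y e => Subtype.ext ?_
    have e' : φ x c = φ y c := congrArg Subtype.val e
    rcases lt_trichotomy x.1 y.1 with g | g | g
    · exact absurd e'.symm (hlt _ _ g)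
    · exact g
    · exact absurd e' (hlt _ _ g)
  · exact (isWide_prePO (fun x => (hpo x).1.ab.le) (hF _) (hF I) (hF J) (hF _)
      (hstr _ _ inter_subset_left) (hstr _ _ inter_subset_right) (hstr _ _ subset_union_left)
      (hstr _ _ subset_union_right)).isPO h.po (hne.mono (hF _).ap.le)

end Vale.Agent.P307P
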