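import Vale.Agent.P307P.Wide1
import Vale.Agent.P307P.Mon1
import Vale.Agent.P307P.Monster

/-! The free family. In a monster for `θ = max #X l` take a nonempty hull `A` and a hull
`B₀ ∋ c`, `c ∉ A`, both of size `≤ l`. `exists_indep` gives independent copies `B x = φ x (B₀)`.
`F I` = the wide pushout from `exists_isWide`.
`str`: `IsWide.le`, `Str.coh`. `fin`: the family of `F J'`, `J' ⊆ J` finite, is directed;
`dir_smooth`, `IsWide.le`, `mem_sSup_dir`. `card_le`: hull of `A ∪ ⋃ x ∈ I, B x`, `IsWide.le`.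
`card_ge`: `x ↦ φ x c` is injective (`B x ⊓ U x = A`, `B y ≤ Q y ≤ U x` for `y < x`).
`po`: `isWide_prePO`, `PrePO.isPO`. `perm`: `wide_perm`. -/

open Cardinal FirstOrder Set
open FirstOrder.Language.Structure

universe u

namespace Vale.Agent.P307P

variable {L : FirstOrder.Language.{u, u}} {K : AEC L} {l θ : Cardinal.{u}}
  {W W' W'' : Type u} [L.Structure W] [L.Structure W'] [L.Structure W'']

/-- `rec_family` on `L.Substructure W` with `Le := (· ≤ ·)`, `Good U := Str K U ⊤ ∧ A ≤ U ∧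
#U ≤ θ`, `size := fun _ => 0`, `m = θ`, `μ = succ θ`, step `Mon.po_exists`. -/
theorem Mon.exists_indep (h : Mon K l θ W) {X : Type u} [LinearOrder X] [WellFoundedLT X]
    (hX : #X ≤ θ) {A B₀ : L.Substructure W} (hne : (A : Set W).Nonempty) (hAB : Str K A B₀)
    (hA : Str K A ⊤) (hc : #B₀ ≤ θ) :
    ∃ (φ : X → W → W) (B U Q : X → L.Substructure W), (∀ x, IsoOn (φ x) B₀ (B x)) ∧
      (∀ x, EqOn (φ x) id A) ∧ (∀ x, IsPO K A (B x) (U x) (Q x)) ∧ (∀ x, Str K (Q x) ⊤) ∧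
      ∀ i j, j < i → Q j ≤ U i := by
  obtain ⟨Q, U, -, H⟩ := rec_family (α := L.Substructure W) (ι := X)
    (fun U => Str K U ⊤ ∧ #U ≤ θ) (· ≤ ·) (fun _ => 0)
    (fun _ U Q => ∃ (φ : W → W) (B' : L.Substructure W),
      IsoOn φ B₀ B' ∧ EqOn φ id A ∧ IsPO K A B' U Q) A (m := θ) (μ := Order.succ θ) h.inf
    (Order.lt_succ θ) (fun i => Order.lt_succ_of_le ((mk_set_le _).trans hX))
    ⟨hA, (card_mono hAB.le).trans hc⟩ zero_le (fun a _ => le_rfl) (fun a b c => le_trans)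
    (fun i a c _ _ ha hAa _ => by
      obtain ⟨φ, B', P, h1, h2, h3, h4, h5⟩ :=
        h.po_exists hne hAB (hA.coh ha.1 hAa) ha.1 hc ha.2
      exact ⟨P, ⟨h4, h5⟩, h3.1.mp.le, ⟨φ, B', h1, h2, h3⟩, zero_le⟩)
    (fun κ _ _ _ F c _ hc2 hκ hF hm => by
      have hmono : Monotone F := fun i j hij => hm i j hij
      exact ⟨⨆ i, F i, ⟨str_chain_smooth F hmono fun i => (hF i).1.1,
        card_iSup_le F hmono h.inf (hκ.trans (Order.le_of_lt_succ hc2)) fun i => (hF i).1.2⟩,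
        zero_le, fun i => le_iSup F i⟩)
  choose φ B h1 h2 h3 using fun i => (H i).2.2.2.2.2.1
  exact ⟨φ, B, U, Q, h1, h2, h3, fun x => (H x).1.1, fun i j hj => (H i).2.2.2.1 j hj⟩

theorem wide2a_med {X : Type u} {A B₀ : L.Substructure W}
    {B : X → L.Substructure W} {φ ψ : X → W → W} (hAB : A ≤ B₀) (hφ : ∀ x, IsoOn (φ x) B₀ (B x))
    (hφA : ∀ x, EqOn (φ x) id A) (hψ : ∀ x, IsoOn (ψ x) (B x) B₀)
    (hψφ : ∀ x, ∀ y ∈ B₀, ψ x (φ x y) = y) {I J : Set X} {P Q : L.Substructure W}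
    (hP : IsWide K A B I P) (hQ : IsWide K A B J Q) (σ : X → X) (hσ : ∀ x ∈ I, σ x ∈ J) :
    ∃ χ : W → W, HomOn χ P ∧ MapsTo χ P Q ∧ EqOn id χ A ∧
      ∀ x ∈ I, EqOn (φ (σ x) ∘ ψ x) χ (B x) := by
  refine hP.ex W Q hQ.ap.mem_right id (fun x => φ (σ x) ∘ ψ x) (homOn_id A)
    (fun a ha => hQ.ap.le ha) fun x hx => ⟨((hφ (σ x)).comp (hψ x)).homOn, fun y hy => ?_,
      fun a ha => ?_⟩
  · exact hQ.bp _ (hσ x hx) (((hφ (σ x)).comp (hψ x)).1.mapsTo hy)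
  · have e1 : φ x a = a := hφA x ha
    have e2 : ψ x a = a := by
      have := hψφ x a (hAB ha)
      rwa [e1] at this
    have e3 : φ (σ x) a = a := hφA (σ x) ha
    show a = φ (σ x) (ψ x a)
    rw [e2, e3]

theorem wide2a_inv {X : Type u} {A B₀ : L.Substructure W}
    {B : X → L.Substructure W} {φ ψ : X → W → W} (hφ : ∀ x, IsoOn (φ x) B₀ (B x))
    (hψ : ∀ x, IsoOn (ψ x) (B x) B₀) (hψφ : ∀ x, ∀ y ∈ B₀, ψ x (φ x y) = y)
    (hφψ : ∀ x, ∀ y ∈ B x, φ x (ψ x y) = y) {P : L.Substructure W}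
    (hP : IsWide K A B univ P) {σ τ : X → X} (hστ : ∀ x, τ (σ x) = x) {χ χ' : W → W}
    (h1 : HomOn χ P) (m1 : MapsTo χ P P) (a1 : EqOn id χ A)
    (b1 : ∀ x ∈ (univ : Set X), EqOn (φ (σ x) ∘ ψ x) χ (B x))
    (h2 : HomOn χ' P) (m2 : MapsTo χ' P P) (a2 : EqOn id χ' A)
    (b2 : ∀ x ∈ (univ : Set X), EqOn (φ (τ x) ∘ ψ x) χ' (B x)) :
    ∀ y ∈ P, χ' (χ y) = y := by
  intro y hy
  refine hP.uq W P hP.ap.mem_right (χ' ∘ χ) id (h2.comp h1 m1) (homOn_id P) (m2.comp m1)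
    (mapsTo_id _) (fun a ha => ?_) (fun x hx z hz => ?_) hy
  · have e1 : a = χ a := a1 ha
    have e2 : a = χ' a := a2 ha
    show χ' (χ a) = a
    rw [← e1, ← e2]
  · have e1 : φ (σ x) (ψ x z) = χ z := b1 x hx hz
    have hz' : ψ x z ∈ B₀ := (hψ x).1.mapsTo hz
    have e2 : φ (τ (σ x)) (ψ (σ x) (φ (σ x) (ψ x z))) = χ' (φ (σ x) (ψ x z)) :=
      b2 (σ x) (mem_univ _) ((hφ (σ x)).1.mapsTo hz')
    show χ' (χ z) = z
    rw [← e1, ← e2, hψφ _ _ hz', hστ, hφψ x z hz]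

/-- Let `ψ x` invert `φ x`. The universal property of `F univ` with `id` on `A` and
`φ (σ x) ∘ ψ x` on `B x` gives `χ`; the same for `σ⁻¹` gives the inverse (`uq`,
`isoOn_of_inverse`). On `F I` compare `χ` with the mediating map into `F (σ '' I)` and with `id`
by `uq` of `F I` with target `F univ`. -/
theorem wide_perm [Nonempty W] {X : Type u} {A B₀ : L.Substructure W}
    {B : X → L.Substructure W} {φ : X → W → W} (hAB : A ≤ B₀) (hφ : ∀ x, IsoOn (φ x) B₀ (B x))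
    (hφA : ∀ x, EqOn (φ x) id A) (F : Set X → L.Substructure W)
    (hF : ∀ I, IsWide K A B I (F I)) (hstr : ∀ I J, I ⊆ J → Str K (F I) (F J))
    (σ : Equiv.Perm X) :
    ∃ χ : W → W, IsoOn χ (F univ) (F univ) ∧ (∀ I, MapsTo χ (F I) (F (σ '' I))) ∧
      ∀ I, (∀ x ∈ I, σ x = x) → EqOn χ id (F I) := by
  choose ψ hψ hψφ hφψ using fun x => (hφ x).exists_symm
  obtain ⟨χ, h1, m1, a1, b1⟩ := wide2a_med hAB hφ hφA hψ hψφ (hF univ) (hF univ) σ
    fun _ _ => mem_univ _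
  obtain ⟨χ', h2, m2, a2, b2⟩ := wide2a_med hAB hφ hφA hψ hψφ (hF univ) (hF univ) σ.symm
    fun _ _ => mem_univ _
  have hle : ∀ I, F I ≤ F univ := fun I => (hstr I univ (subset_univ I)).le
  refine ⟨χ, isoOn_of_inverse h1 m1 h2 m2
    (wide2a_inv hφ hψ hψφ hφψ (hF univ) σ.symm_apply_apply h1 m1 a1 b1 h2 m2 a2 b2)
    (wide2a_inv hφ hψ hψφ hφψ (hF univ) σ.apply_symm_apply h2 m2 a2 b2 h1 m1 a1 b1),
    fun I => ?_, fun I hI => ?_⟩
  · obtain ⟨χI, h3, m3, a3, b3⟩ := wide2a_med hAB hφ hφA hψ hψφ (hF I) (hF (σ '' I)) σ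
      fun x hx => mem_image_of_mem _ hx
    have he : EqOn χ χI (F I) :=
      (hF I).uq W (F univ) (hF univ).ap.mem_right χ χI (h1.mono (hle I)) h3
        (fun y hy => m1 (hle I hy)) (fun y hy => hle _ (m3 hy))
        (fun a ha => (a1 ha).symm.trans (a3 ha))
        fun x hx z hz => (b1 x (mem_univ x) hz).symm.trans (b3 x hx hz)
    intro y hy
    rw [he hy]
    exact m3 hy
  · refine (hF I).uq W (F univ) (hF univ).ap.mem_right χ id (h1.mono (hle I)) (homOn_id _)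
      (fun y hy => m1 (hle I hy)) (fun y hy => hle I hy) (fun a ha => (a1 ha).symm)
      fun x hx z hz => ?_
    have e1 : φ (σ x) (ψ x z) = χ z := b1 x (mem_univ x) hz
    show χ z = z
    rw [← e1, hI x hx, hφψ x z hz]

end Vale.Agent.P307P
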